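import Vale.Agent.P088.R2.H551.RS.Alv

/-!
# P088, stage 3, leaves `RSn`, `RSf`: the gradients of the weight

`Gt = Ψ_f` (`= G₀` near the diagonal), `nt = Φ'(u₀) + Gt`; `F_ge`, `F_le`: `|W_x|`, `|W_y|` are
between `nt / 8` and `2 nt`.
-/

open Set Filter
open scoped ContDiff Topology Matrix

noncomputable section

namespace Vale.Agent.P088.R2.H551.RS

open Vale.Agent.P088.LR Vale.Agent.P088.HY Vale.Agent.P088.R2.H31.EP
open Vale.Agent.P088.R2.H475
open Vale.Agent.P088.R2.H464.Cu (mid dif rq)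
open Vale.Agent.P088.R2.H404.INF (InfC evInf lvG NearOk l₀_nonneg)
open Vale.Agent.P088.R2.H867.EP (Zo path sd RS Inf Near Off)
open Vale.Agent.P088.R2.H710.GP (GC evG LS_bdd en en_nn en_sq en_tri en_tri' en_sm en_lo gl gx gy cq
  gl_near gx_eq gy_eq NO rr rr_nn rr_sq u0_fd qq_fd Qd Qd_apply cq_rr en_cq)

variable {n : ℕ} {q : Cst} {d : Pk n} {z : VV n}

/-- The coefficient of `x - y`. -/
def cf (q : Cst) (d : Pk n) (z : VV n) : ℝ := (prL q.e₁ (rr z) * Gf q d z + Hf q d z) / rr z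

theorem Wx_far (hc : RC n q) (h : PkOk q d) (hz : z ∈ UF q d) (hr : 0 < rr z) :
    Wx q d z = (deriv d.Φ (d.u0 z) + Gf q d z) • gl d.l z.1 + cf q d z • (z.1 - z.2) := by
  funext i
  show dx i (d.W q) z = _
  unfold dx
  rw [fd_W hc h hz hr]
  have e : ∑ j, (z.1 j - z.2 j) * ((Pi.single i (1 : ℝ) : V n) j - (0 : V n) j) =
      z.1 i - z.2 i := by
    rw [Finset.sum_eq_single i]
    · simp
    · intro j _ hj
      simp [Pi.single_eq_of_ne hj]
    · simp
  simp only [Pi.add_apply, Pi.smul_apply, smul_eq_mul, Pi.sub_apply, gl, e]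
  simp [pd, cf]

theorem Wy_far (hc : RC n q) (h : PkOk q d) (hz : z ∈ UF q d) (hr : 0 < rr z) :
    Wy q d z = (deriv d.Φ (d.u0 z) + Gf q d z) • gl d.l z.2 - cf q d z • (z.1 - z.2) := by
  funext i
  show dy i (d.W q) z = _
  unfold dy
  rw [fd_W hc h hz hr]
  have e : ∑ j, (z.1 j - z.2 j) * ((0 : V n) j - (Pi.single i (1 : ℝ) : V n) j) =
      -(z.1 i - z.2 i) := by
    rw [Finset.sum_eq_single i]
    · simp
    · intro j _ hj
      simp [Pi.single_eq_of_ne hj]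
    · simp
  simp only [Pi.sub_apply, Pi.smul_apply, smul_eq_mul, gl, e]
  simp [pd, cf]
  ring

/-- `r₁ / e`. -/
def rd (q : Cst) : ℝ := q.r₁ * Real.exp (-1)

theorem rd_pos (hc : RC n q) : 0 < rd q := by
  have := hc.rd
  have h2 := prR_pos q.e₁
  unfold rd
  linarith

/-- The flat weight near the diagonal. -/
theorem W_ev (hc : RC n q) (h : PkOk q d) (hz : z ∈ UF q d) (hr : rr z < rd q) :
    d.W q =ᶠ[𝓝 z] d.W0 q := by
  have h0 := rd_pos hc
  have h1 : qq z < rd q ^ 2 := by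
    rw [← rr_sq]
    have := rr_nn z
    gcongr
  filter_upwards [(UF_open h).mem_nhds hz,
    (isOpen_lt qq_sm.continuous continuous_const).mem_nhds h1] with w hw hw'
  rw [(flt hc.n1 hc.inf h hw).W, st_in' h.ok hw']
  rfl

theorem Wx_near (hc : RC n q) (h : PkOk q d) (hz : z ∈ UF q d) (hr : rr z < rd q) :
    Wx q d z = gx d q z := by
  funext i
  show fderiv ℝ (d.W q) z _ = fderiv ℝ (d.W0 q) z _
  rw [(W_ev hc h hz hr).fderiv_eq]

theorem Wy_near (hc : RC n q) (h : PkOk q d) (hz : z ∈ UF q d) (hr : rr z < rd q) :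
    Wy q d z = gy d q z := by
  funext i
  show fderiv ℝ (d.W q) z _ = fderiv ℝ (d.W0 q) z _
  rw [(W_ev hc h hz hr).fderiv_eq]

/-- `Ψ_f`, on the diagonal `G₀`. -/
def Gt (q : Cst) (d : Pk n) (z : VV n) : ℝ := if 0 < rr z then Gf q d z else d.G0 q z

/-- `Φ'(u₀) + Ψ_f`. -/
def nt (q : Cst) (d : Pk n) (z : VV n) : ℝ := deriv d.Φ (d.u0 z) + Gt q d z

theorem Gt_near (hc : RC n q) (h : PkOk q d) (hr : rr z < rd q) : Gt q d z = d.G0 q z := by
  unfold Gt
  split_ifs with h0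
  · have hs : 0 < qq z := by rw [← rr_sq]; positivity
    have hS : 0 < prS q.e₁ (qq z) := hc.gc.rad.pp.S_pos hs
    unfold Gf Pk.G0
    rw [h.sl.inn 1 0 (d.u0 z + Real.log (prS q.e₁ (qq z)), √(qq z)) (Real.sqrt_pos.2 hs) hr,
      if_pos rfl]
    show Real.exp (d.u0 z + Real.log (prS q.e₁ (qq z))) = _
    rw [Real.exp_add, Real.exp_log hS]
  · rfl

theorem Gf_nn (h : PkOk q d) (hr : 0 < rr z) : 0 < Gf q d z := by
  have hs : 0 < qq z := by rw [← rr_sq]; positivity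
  exact h.sl.G_pos (d.u0 z + Real.log (prS q.e₁ (qq z)), √(qq z)) (Real.sqrt_pos.2 hs)

theorem Gt_nn (hc : RC n q) (h : PkOk q d) (z : VV n) : 0 ≤ Gt q d z := by
  unfold Gt
  split_ifs with h0
  · exact (Gf_nn h h0).le
  · exact PkOk.G0_nonneg hc.gc.rad z

theorem Hf_le (h : PkOk q d) (hr : 0 < rr z) : |Hf q d z| ≤ q.es * Gf q d z := by
  have hs : 0 < qq z := by rw [← rr_sq]; positivity
  exact h.sl.mu (d.u0 z + Real.log (prS q.e₁ (qq z)), √(qq z)) (Real.sqrt_pos.2 hs)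

theorem N_le_nt (hc : RC n q) (h : PkOk q d) (z : VV n) : deriv d.Φ (d.u0 z) ≤ nt q d z := by
  have := Gt_nn hc h z
  unfold nt
  linarith

/-- **The gradients.** -/
theorem w_form (hc : RC n q) (h : PkOk q d) (hz : z ∈ UF q d)
    (hN : q.nm * Real.exp (d.u0 z) ≤ deriv d.Φ (d.u0 z)) :
    ∃ v : V n, en v ≤ 81 / 100 * nt q d z ∧ Wx q d z = nt q d z • gl d.l z.1 + v ∧
      Wy q d z = nt q d z • gl d.l z.2 - v := by
  have hn := N_le_nt hc h z
  have hN0 : 0 < deriv d.Φ (d.u0 z) := h.N_pos hc.gc.M1 _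
  have hG := Gt_nn hc h z
  have hrd := hc.rd
  by_cases hr : rr z < rd q
  · have e1 : nt q d z = d.NG q z := by unfold nt Pk.NG; rw [Gt_near hc h hr]
    refine ⟨cq d q z • (z.1 - z.2), ?_, ?_, ?_⟩
    · by_cases h0 : 0 < rr z
      · rw [en_cq hc.gc.rad h0]
        by_cases h1 : rr z ≤ prR q.e₁ + 1
        · have h2 := hc.nm _ h0 h1
          have h3 : prL q.e₁ (rr z) * d.G0 q z =
              Real.exp (d.u0 z) * (prL q.e₁ (rr z) * prS q.e₁ (rr z ^ 2)) := by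
            unfold Pk.G0
            rw [rr_sq]
            ring
          rw [h3]
          have he := Real.exp_pos (d.u0 z)
          nlinarith
        · have h2 := prL_far hc.gc.rad.pp (show prR q.e₁ ≤ rr z by linarith)
          rw [h2]
          have h3 : d.G0 q z ≤ nt q d z := by rw [e1]; unfold Pk.NG; linarith
          have h4 := PkOk.G0_nonneg (d := d) hc.gc.rad z
          unfold Li
          linarith
      · have h1 : rr z = 0 := le_antisymm (not_lt.1 h0) (rr_nn z)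
        have h2 : en (z.1 - z.2) = 0 := h1
        rw [en_sm, h2, mul_zero]
        linarith
    · rw [Wx_near hc h hz hr, gx_eq h hc.gc.rad.e0, e1]
    · rw [Wy_near hc h hz hr, gy_eq h hc.gc.rad.e0, e1]
  · have h0 : 0 < rr z := by
      have := rd_pos hc
      linarith
    have e1 : nt q d z = deriv d.Φ (d.u0 z) + Gf q d z := by
      unfold nt Gt
      rw [if_pos h0]
    refine ⟨cf q d z • (z.1 - z.2), ?_, ?_, ?_⟩
    · rw [en_sm]
      have e2 : en (z.1 - z.2) = rr z := rfl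
      have e3 : |cf q d z| * rr z = |prL q.e₁ (rr z) * Gf q d z + Hf q d z| := by
        unfold cf
        rw [abs_div, abs_of_pos h0, div_mul_cancel₀ _ h0.ne']
      have h1 : prR q.e₁ ≤ rr z := by
        have h5 := hc.rd
        have h6 : rd q ≤ rr z := not_lt.1 hr
        unfold rd at h6
        linarith
      rw [e2, e3, prL_far hc.gc.rad.pp h1]
      have h2 := Hf_le h h0
      have h3 := Gf_nn h h0
      have h4 := hc.es
      have h5 : q.es * Gf q d z ≤ 1 / 100 * Gf q d z := mul_le_mul_of_nonneg_right h4 h3.le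
      refine (abs_add_le _ _).trans ?_
      unfold Li
      rw [abs_mul, abs_of_pos h3, abs_of_pos (by norm_num : (0 : ℝ) < 4 / 5)]
      linarith
    · rw [Wx_far hc h hz h0, e1]
    · rw [Wy_far hc h hz h0, e1]

/-- The facts about the gradients. -/
structure GR (q : Cst) (d : Pk n) (z : VV n) : Prop where
  nt0 : 0 < nt q d z
  x1 : nt q d z / 8 ≤ en (Wx q d z)
  x2 : en (Wx q d z) ≤ 2 * nt q d z
  y1 : nt q d z / 8 ≤ en (Wy q d z)
  y2 : en (Wy q d z) ≤ 2 * nt q d z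
  gx1 : en (gl d.l z.1) ≤ 2
  gy1 : en (gl d.l z.2) ≤ 2

theorem grad (hc : RC n q) (h : PkOk q d) (hz : z ∈ UF q d) (hno : NO q d z)
    (hN : q.nm * Real.exp (d.u0 z) ≤ deriv d.Φ (d.u0 z)) : GR q d z := by
  obtain ⟨v, hv, ex, ey⟩ := w_form hc h hz hN
  have hn := N_le_nt hc h z
  have hN0 : 0 < deriv d.Φ (d.u0 z) := h.N_pos hc.gc.M1 _
  have hn0 : 0 < nt q d z := by linarith
  have g1 := gl_near hc.inf h hno.g1 hno.w1
  have g2 := gl_near hc.inf h hno.g2 hno.w2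
  have hσ := hc.inf.σ1
  have hσ0 := hc.inf.σ0
  have a1 := mul_le_mul_of_nonneg_left g1.1 hn0.le
  have a2 := mul_le_mul_of_nonneg_left g1.2 hn0.le
  have b1 := mul_le_mul_of_nonneg_left g2.1 hn0.le
  have b2 := mul_le_mul_of_nonneg_left g2.2 hn0.le
  have c1 := en_lo (gl d.l z.1) v hn0.le
  have c2 := en_tri (nt q d z • gl d.l z.1) v
  have ey' : Wy q d z = nt q d z • gl d.l z.2 + (-1 : ℝ) • v := by
    rw [ey, neg_one_smul, sub_eq_add_neg]
  have ev : en ((-1 : ℝ) • v) = en v := by rw [en_sm]; norm_num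
  have d1 := en_lo (gl d.l z.2) ((-1 : ℝ) • v) hn0.le
  have d2 := en_tri (nt q d z • gl d.l z.2) ((-1 : ℝ) • v)
  rw [ev] at d1 d2
  rw [en_sm, abs_of_pos hn0] at c2 d2
  have s1 : nt q d z * (1 + 5 * q.σ) ≤ nt q d z * (11 / 10) :=
    mul_le_mul_of_nonneg_left (by linarith) hn0.le
  refine ⟨hn0, ?_, ?_, ?_, ?_, by linarith [g1.2], by linarith [g2.2]⟩
  · rw [ex]; linarith
  · rw [ex]; linarith
  · rw [ey']; linarith
  · rw [ey']; linarith

theorem AR.grad (hc : RC n q) (h : PkOk q d) (ar : AR q d z) : GR q d z := by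
  have hf := flt hc.n1 hc.inf h ar.uf
  refine RS.grad hc h ar.uf ar.no ?_
  have h1 := ar.nm
  unfold Pk.E Pk.N at h1
  rw [hf.u] at h1
  exact h1.le

/-! ## In the slots -/

theorem sx_D (i : Fin n) (f : VV n → ℝ) (z : VV n) : d.sx.D i f z = dx i f z := one_mul _

theorem sy_D (i : Fin n) (f : VV n → ℝ) (z : VV n) : d.sy.D i f z = dy i f z := one_mul _

theorem sx_Γ (h : d.s₁ z.1 = 1) (f : VV n → ℝ) : d.sx.Γ f f z = ∑ i, dx i f z ^ 2 := by
  have e : d.sx.Γ f f z = ∑ i, ∑ j, d.s₁ z.1 i j * dx i f z * dx j f z := by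
    have e1 : d.sx.Γ f f z = ∑ i, ∑ j, d.s₁ z.1 i j * d.sx.D i f z * d.sx.D j f z := rfl
    rw [e1]
    simp only [sx_D]
  rw [e, h]
  refine Finset.sum_congr rfl fun i _ => ?_
  rw [Finset.sum_eq_single i]
  · rw [Matrix.one_apply_eq]; ring
  · intro j _ hj
    rw [Matrix.one_apply_ne (Ne.symm hj)]
    ring
  · simp

theorem sy_Γ (h : d.s₂ z.2 = 1) (f : VV n → ℝ) : d.sy.Γ f f z = ∑ i, dy i f z ^ 2 := by
  have e : d.sy.Γ f f z = ∑ i, ∑ j, d.s₂ z.2 i j * dy i f z * dy j f z := by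
    have e1 : d.sy.Γ f f z = ∑ i, ∑ j, d.s₂ z.2 i j * d.sy.D i f z * d.sy.D j f z := rfl
    rw [e1]
    simp only [sy_D]
  rw [e, h]
  refine Finset.sum_congr rfl fun i _ => ?_
  rw [Finset.sum_eq_single i]
  · rw [Matrix.one_apply_eq]; ring
  · intro j _ hj
    rw [Matrix.one_apply_ne (Ne.symm hj)]
    ring
  · simp

theorem sx_F (h : d.s₁ z.1 = 1) : d.sx.F (d.W q) z = en (Wx q d z) ^ 2 := by
  have e : d.sx.F (d.W q) z = d.sx.Γ (d.W q) (d.W q) z := rfl
  rw [e, sx_Γ h, en_sq]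
  rfl

theorem sy_F (h : d.s₂ z.2 = 1) : d.sy.F (d.W q) z = en (Wy q d z) ^ 2 := by
  have e : d.sy.F (d.W q) z = d.sy.Γ (d.W q) (d.W q) z := rfl
  rw [e, sy_Γ h, en_sq]
  rfl

/-- **The gradients where a leaf `RS` is alive.** -/
structure GF (q : Cst) (d : Pk n) (z : VV n) : Prop where
  ar : AR q d z
  fl : Flt q d z
  gr : GR q d z
  /-- `N ≤ nt` -/
  N1 : d.N q z ≤ nt q d z
  Nf : d.N q z = deriv d.Φ (d.u0 z)
  Fx1 : nt q d z ^ 2 / 64 ≤ d.sx.F (d.W q) z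
  Fx2 : d.sx.F (d.W q) z ≤ 4 * nt q d z ^ 2
  Fy1 : nt q d z ^ 2 / 64 ≤ d.sy.F (d.W q) z
  Fy2 : d.sy.F (d.W q) z ≤ 4 * nt q d z ^ 2

theorem gf_of (hc : RC n q) (h : PkOk q d) {k : Zo} (hk : RS k) (hz : d.ch q k z ≠ 0) :
    GF q d z := by
  have ar := ar_of hc h hk hz
  have fl := flt hc.n1 hc.inf h ar.uf
  have gr := ar.grad hc h
  have eN : d.N q z = deriv d.Φ (d.u0 z) := by
    unfold Pk.N
    rw [fl.u]
  have h0 := gr.nt0
  refine ⟨ar, fl, gr, eN ▸ N_le_nt hc h z, eN, ?_, ?_, ?_, ?_⟩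
  · rw [sx_F fl.s₁x]
    have := gr.x1
    have h2 : (nt q d z / 8) ^ 2 ≤ en (Wx q d z) ^ 2 := by gcongr
    linarith
  · rw [sx_F fl.s₁x]
    have := gr.x2
    have := en_nn (Wx q d z)
    have h2 : en (Wx q d z) ^ 2 ≤ (2 * nt q d z) ^ 2 := by gcongr
    linarith
  · rw [sy_F fl.s₂y]
    have := gr.y1
    have h2 : (nt q d z / 8) ^ 2 ≤ en (Wy q d z) ^ 2 := by gcongr
    linarith
  · rw [sy_F fl.s₂y]
    have := gr.y2
    have := en_nn (Wy q d z)
    have h2 : en (Wy q d z) ^ 2 ≤ (2 * nt q d z) ^ 2 := by gcongr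
    linarith

/-- **The export for the row of the gains.** -/
theorem evGF (hn : 1 ≤ n) : EvC fun q => ∀ d : Pk n, PkOk q d → ∀ k, RS k → ∀ z,
    d.ch q k z ≠ 0 → GF q d z :=
  (evRC hn).mono fun _ hc _ h _ hk _ hz => gf_of hc h hk hz

end Vale.Agent.P088.R2.H551.RS
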