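import Vale.Agent.P088.R2.H551.RS.Inst

/-!
# P088, stage 3: all payments with a leaf `RSn`, `RSf` (without the leaves at infinity)

`dead_RS`: a leaf `RS` meets only the leaves `Al`. `payEW_RS`: the payments of all pairs with a
leaf `RS`.
-/

open Set Filter
open scoped ContDiff Topology Matrix

noncomputable section

namespace Vale.Agent.P088.R2.H551.RS

open Vale.Agent.P088.LR Vale.Agent.P088.HY Vale.Agent.P088.R2.H31.EP
open Vale.Agent.P088.R2.H867.EP (Zo Cut cuts path sd RS Inf Near Off zo_cases)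
open Vale.Agent.P088.R2.H710.GP (en en_nn en_sq rr rr_nn rr_sq NG_pos sq_gx sq_gy)
open Vale.Agent.P088.R2.H455.E
open Vale.Agent.P088.R2.H558.G (RowPayW PayEW)

variable {n : ℕ} {q : Cst} {d : Pk n} {z : VV n}

theorem dead_pt (hc : RC n q) (h : PkOk q d) (hP : (d.cp q).Ok) {k j : Zo} (hk : RS k)
    (hj : ¬Inf j) (hj' : ¬Al j) (hz : d.ch q k z ≠ 0) (hw : d.ch q j z ≠ 0) : False := by
  have gf := gf_of hc h hk hz
  have hN : 0 < d.N q z := h.N_pos hc.gc.M1 _
  have hG : 0 < d.NG q z := NG_pos hc.gc h z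
  have hrT := hc.gc.rT0
  have hrT1 := hc.gc.rT1
  have hp1 := Cst.p₁_ge hc.gc.rad
  have hp2 := Cst.p₂_lt hc.gc.rad
  have hp12 := Cst.p₁_lt hc.gc.rad
  have hr0 : Off j → 0 < rr z := fun hk => by
    have h1 := sd_off hw hk hP
    rw [← rr2 gf] at h1
    have h2 := hc.pos.1
    have h3 : 0 < rr z ^ 2 := lt_of_lt_of_le (by positivity) h1
    exact lt_of_le_of_ne (rr_nn z) fun h4 => by rw [← h4] at h3; norm_num at h3
  have tx : Off j → j ≠ .Af → ∀ t, 0 < t → t ≤ 1 / 20 →
      ∑ i, dx i (d.W0 q) z ^ 2 < (t * d.NG q z) ^ 2 → False := by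
    intro ho hA t ht ht1 hlt
    have h2 := sd_nf hw ho hA hP
    rw [← rr2 gf] at h2
    have h1 : rr z ≤ 2 * q.p₁ := (abs_le_of_sq_le_sq' h2 (by linarith)).2
    have h3 := (no_tube hc h gf (hr0 ho) h1).1
    rw [sq_gx] at hlt
    have h5 := lt_of_pow_lt_pow_left₀ 2 (by positivity) hlt
    have h4 : t * d.NG q z ≤ 1 / 20 * d.NG q z := mul_le_mul_of_nonneg_right ht1 hG.le
    linarith
  have ty : Off j → j ≠ .Af → ∀ t, 0 < t → t ≤ 1 / 20 →
      ∑ i, dy i (d.W0 q) z ^ 2 < (t * d.NG q z) ^ 2 → False := by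
    intro ho hA t ht ht1 hlt
    have h2 := sd_nf hw ho hA hP
    rw [← rr2 gf] at h2
    have h1 : rr z ≤ 2 * q.p₁ := (abs_le_of_sq_le_sq' h2 (by linarith)).2
    have h3 := (no_tube hc h gf (hr0 ho) h1).2
    rw [sq_gy] at hlt
    have h5 := lt_of_pow_lt_pow_left₀ 2 (by positivity) hlt
    have h4 : t * d.NG q z ≤ 1 / 20 * d.NG q z := mul_le_mul_of_nonneg_right ht1 hG.le
    linarith
  have near : Near j → j ≠ .z0 → False := by
    intro hn h0
    have h5 := sd_e0 hw hn h0 hP hc.aC0 hN
    have h6 := gf.ar.nm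
    have h7 : 0 < d.E q z := Real.exp_pos _
    have h8 := hc.aC1
    have h9 := hc.nm1
    nlinarith
  cases j with
  | T1 => exact tx (by unfold Off; decide) (by decide) q.rT hrT (by linarith) (sd_T1 hrT hG hw)
  | T2 => exact ty (by unfold Off; decide) (by decide) q.rT hrT (by linarith) (sd_T2 hrT hG hw)
  | P1 =>
    have h1 := sd_P1 hrT hG hw
    exact tx (by unfold Off; decide) (by decide) (4 * q.rT) (by linarith) (by linarith) h1
  | P2 =>
    have h1 := sd_P2 hrT hG hw
    exact ty (by unfold Off; decide) (by decide) (4 * q.rT) (by linarith) (by linarith) h1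
  | zI => exact near (by unfold Near; decide) (by decide)
  | z2a => exact near (by unfold Near; decide) (by decide)
  | zB => exact near (by unfold Near; decide) (by decide)
  | z2b => exact near (by unfold Near; decide) (by decide)
  | iH => exact hj (by unfold Inf; decide)
  | iF => exact hj (by unfold Inf; decide)
  | iS => exact hj (by unfold Inf; decide)
  | _ => exact hj' (by unfold Al; decide)

/-- **A leaf `RS` meets only the leaves `Al`** (and the leaves at infinity). -/
theorem dead_RS (hn : 1 ≤ n) {k j : Zo} (hk : RS k) (hj : ¬Inf j) (hj' : ¬Al j) :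
    EvC fun q => ∀ d : Pk n, PkOk q d → ∀ z, d.ch q k z ≠ 0 → d.ch q j z ≠ 0 → False :=
  ((evRC hn).and (EvC.litSm n)).mono fun _ hq d h _ hz hw =>
    dead_pt hq.1 h (hq.2 d h).cp hk hj hj' hz hw

/-- **All payments with a leaf `RS`**, without the leaves at infinity. -/
theorem payEW_RS (hn : 1 ≤ n) {L : Lc n} (hL : L.Ok) (lr : LRS L) {k j : Zo} (hk : ¬Inf k)
    (hj : ¬Inf j) (hRS : RS k ∨ RS j) : PayEW L k j := by
  by_cases ak : Al k
  · by_cases aj : Al j
    · exact payEW_all hn hL lr ak aj hRS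
    · have hk' : RS k := by
        rcases hRS with h | h
        · exact h
        · exact absurd (al_RS h) aj
      exact PayEW.dead (dead_RS hn hk' hj aj)
  · have hj' : RS j := by
      rcases hRS with h | h
      · exact absurd (al_RS h) ak
      · exact h
    refine PayEW.dead ((dead_RS hn hj' hk ak).mono fun q hq d h z h1 h2 => hq d h z h2 h1)

end Vale.Agent.P088.R2.H551.RS
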