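import Vale.Agent.P088.R2.H551.RS.Geo

/-!
# P088, stage 3, leaves `RSn`, `RSf`: alive facts and gradients

`RC`: conditions on the constants. `AR q d z`: what is known where a leaf `RS` is alive.
-/

open Set Filter
open scoped ContDiff Topology Matrix

noncomputable section

namespace Vale.Agent.P088.R2.H551.RS

open Vale.Agent.P088.LR Vale.Agent.P088.HY Vale.Agent.P088.R2.H31.EP
open Vale.Agent.P088.R2.H475
open Vale.Agent.P088.R2.H464.Cu (mid dif rq)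
open Vale.Agent.P088.R2.H404.INF (InfC evInf lvG NearOk l₀_nonneg)
open Vale.Agent.P088.R2.H867.EP (Zo path sd RS Inf Near Off)
open Vale.Agent.P088.R2.H710.GP (GC evG LS_bdd en en_nn en_sq en_tri en_tri' en_sm en_lo gl gx gy cq
  gl_near gx_eq gy_eq NO rr rr_nn rr_sq u0_fd qq_fd Qd Qd_apply cq_rr)

variable {n : ℕ} {q : Cst} {d : Pk n} {z : VV n}

/-! ## The constants -/

theorem prL_far {e₁ r : ℝ} (h : H644.PP 2 Li e₁ rp dp) (hr : prR e₁ ≤ r) : prL e₁ r = Li := by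
  have ha : 0 ≤ (H644.az 2 Li rp + dp) / e₁ :=
    div_nonneg (add_nonneg (h.δ0.le.trans (h.le_az h.r0)) h.δ0.le) h.ε0.le
  set c : ℝ := 2 + (H644.az 2 Li rp + dp) / e₁ with hc
  have hr' : rp * Real.exp c ≤ r := hr
  have hr1 : rp ≤ r := by
    have : 1 ≤ Real.exp c := Real.one_le_exp (by linarith)
    nlinarith [h.r0]
  have hr0 : 0 < r := h.r0.trans_le hr1
  have hlog : c ≤ Real.log r - Real.log rp := by
    have := Real.log_le_log (mul_pos h.r0 (Real.exp_pos c)) hr'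
    rw [Real.log_mul h.r0.ne' (Real.exp_pos _).ne', Real.log_exp] at this
    linarith
  have h1 : H644.ramp (Real.log r - Real.log rp - 1) = Real.log r - Real.log rp - 1 :=
    H644.ramp_id (by linarith)
  have h2 : H644.az 2 Li r ≤ H644.az 2 Li rp := h.antitone_az h.r0 hr0 hr1
  have h3 : H644.gz 2 Li e₁ rp r ≤ -dp := by
    unfold H644.gz
    rw [h1]
    have h4 : e₁ * (c - 1) ≤ e₁ * (Real.log r - Real.log rp - 1) :=
      mul_le_mul_of_nonneg_left (by linarith) h.ε0.le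
    have h5 : e₁ * (c - 1) = e₁ + (H644.az 2 Li rp + dp) := by
      rw [hc]
      field_simp [h.ε0.ne']
      ring
    linarith [h.ε0]
  have h6 : H644.gz 2 Li e₁ rp r / dp ≤ -1 := by rw [div_le_iff₀ h.δ0]; linarith
  show H644.Lf 2 Li e₁ rp dp r = Li
  unfold H644.Lf
  rw [H644.ramp_zero h6]
  simp

/-- The conditions on the constants. -/
structure RC (n : ℕ) (q : Cst) : Prop where
  n1 : 1 ≤ n
  inf : InfC q
  gc : GC q
  pos : 0 < q.c₀ ∧ q.c₀ ≤ 1 / 4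
  nm1 : 1 ≤ q.nm
  aC0 : 0 < q.aC
  aC1 : q.aC ≤ 1 / 2
  R : 100 ≤ q.R
  es : q.es ≤ 1 / 100
  nm : ∀ r, 0 < r → r ≤ prR q.e₁ + 1 → 8 * (prL q.e₁ r * prS q.e₁ (r ^ 2)) ≤ q.nm
  rd : prR q.e₁ + 1 < q.r₁ * Real.exp (-1)

theorem evRC (hn : 1 ≤ n) : EvC (RC n) := by
  have c1 : EvC fun q => q.c₀ ≤ 1 / 4 :=
    EvC.at_c₀ (fun _ t => t ≤ 1 / 4) fun _ => sml_le (by norm_num)
  have c2 : EvC fun q => q.aC ≤ 1 / 2 :=
    EvC.at_aC (fun _ t => t ≤ 1 / 2) fun _ => sml_le (by norm_num)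
  have c3 : EvC fun q => 100 ≤ q.R :=
    EvC.at_R (fun _ t => 100 ≤ t) fun _ => ev_top 100 fun t ht => ht
  have c4 : EvC fun q => q.es ≤ 1 / 100 :=
    EvC.at_es (fun _ t => t ≤ 1 / 100) fun _ => sml_le (by norm_num)
  have c5 : EvC fun q => H509.Rad.Ok q.e₁ rp → ∀ r, 0 < r → r ≤ prR q.e₁ + 1 →
      8 * (prL q.e₁ r * prS q.e₁ (r ^ 2)) ≤ q.nm :=
    EvC.at_nm (fun q t => H509.Rad.Ok q.e₁ rp → ∀ r, 0 < r → r ≤ prR q.e₁ + 1 →
      8 * (prL q.e₁ r * prS q.e₁ (r ^ 2)) ≤ t) fun q => by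
      by_cases h : H509.Rad.Ok q.e₁ rp
      · obtain ⟨C, hC⟩ := LS_bdd q.e₁ h (prR q.e₁ + 1)
        exact ev_top (8 * C) fun t ht _ r h0 h1 => by linarith [hC r h0 h1]
      · exact Eventually.of_forall fun _ h1 => absurd h1 h
  have c6 : EvC fun q => 0 < q.c' → prR q.e₁ + 1 < q.c' * q.M₀ / 2 * Real.exp (-1) :=
    EvC.at_M₀ (fun q t => 0 < q.c' → prR q.e₁ + 1 < q.c' * t / 2 * Real.exp (-1)) fun q => by
      by_cases hc : 0 < q.c'
      · have h1 : Tendsto (fun t : ℝ => q.c' * t / 2 * Real.exp (-1)) atTop atTop := by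
          refine Tendsto.atTop_mul_const (Real.exp_pos _) ?_
          refine Tendsto.atTop_div_const (by norm_num) ?_
          exact Tendsto.const_mul_atTop hc tendsto_id
        filter_upwards [h1.eventually_gt_atTop (prR q.e₁ + 1)] with t ht _ using ht
      · exact Eventually.of_forall fun _ h => absurd h hc
  refine (((evInf.and evG).and (EvC.pos.and c1)).and ((c2.and c3).and
    ((c4.and c5).and c6))).mono ?_
  rintro q ⟨⟨⟨a1, a2⟩, ⟨⟨-, -, m1, -, aC, c0, -, -, -, -⟩, ⟨-, -, cc, -⟩, -⟩, b1⟩,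
    ⟨b2, b3⟩, ⟨b4, b5⟩, b6⟩
  exact ⟨hn, a1, a2, ⟨c0, b1⟩, m1, aC, b2, b3, b4, b5 a2.rad, b6 cc⟩

/-! ## Alive facts -/

/-- What is known where a leaf `RS` is alive. -/
structure AR (q : Cst) (d : Pk n) (z : VV n) : Prop where
  uf : z ∈ UF q d
  no : NO q d z
  ut : d.uth q < d.u0 z
  ub : d.u0 z < 2 * d.l₀ q + 93 / 20 * q.R
  nm : q.nm * d.E q z < d.N q z
  E : Real.exp (2 * q.R) ≤ d.E q z
  N : Real.exp (2 * q.R) ≤ d.N q z

theorem RS_nInf {k : Zo} (hk : RS k) : ¬Inf k := by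
  unfold Inf
  rcases hk with rfl | rfl <;> decide

theorem ar_of (hc : RC n q) (h : PkOk q d) {k : Zo} (hk : RS k) (hz : d.ch q k z ≠ 0) :
    AR q d z := by
  have hR := hc.R
  have hR0 := hc.inf.R0
  have hL := lvG hc.inf h
  have hN : 0 < d.N q z := h.N_pos hc.gc.M1 _
  have hno : NO q d z := sd_near hz (RS_nInf hk) hc.inf.κ0 hc.inf.κ1 hL
  obtain ⟨f1, f2, f3⟩ := sd_fin hz (RS_nInf hk) hc.inf.κ0 hc.inf.σ0 hR0
  obtain ⟨g1, g2⟩ := sd_RS hz hk (by linarith [hc.nm1]) hN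
  have hu := abs_le.1 (u_sub h z)
  have hl0 := l₀_nonneg hc.inf h
  have hκ0 := hc.inf.κ0
  have hκ := hc.inf.κ1
  have e1 := hL.gl z.1
  have e2 := hL.gl z.2
  have hd := abs_le.1 hno.dg
  rw [e1, e2, ← sub_div] at hd
  have k1 := hd.1
  have k2 := hd.2
  rw [le_div_iff₀ hR0] at k1
  rw [div_le_iff₀ hR0] at k2
  have kR : q.κ₁ * q.R ≤ 1 / 50 * q.R := mul_le_mul_of_nonneg_right hκ hR0.le
  have hut : d.uth q = 2 * d.l₀ q + 22 / 10 * q.R := rfl
  have hu0 : d.u0 z = d.l z.1 + d.l z.2 := rfl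
  have b1 := (hL.l12 z.1).1 hno.g1
  have b2 := (hL.l12 z.2).1 hno.g2
  have huf : z ∈ UF q d := by
    refine ⟨?_, by linarith, by linarith, by linarith, by linarith⟩
    have : (q.κ₁ * q.R) ^ 2 ≤ (1 / 50 * q.R) ^ 2 := by gcongr
    nlinarith
  have hf := flt hc.n1 hc.inf h huf
  rw [hf.u] at g2
  have hE : Real.exp (2 * q.R) ≤ d.E q z := by
    unfold Pk.E
    rw [hf.u]
    exact Real.exp_le_exp.2 (by linarith)
  refine ⟨huf, hno, g2, by linarith, g1, hE, ?_⟩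
  have hE0 : 0 < d.E q z := Real.exp_pos _
  have := hc.nm1
  nlinarith

/-- An old leaf and a leaf `RS` are alive: `N < e nm E`. -/
theorem nRS_of (hc : RC n q) (h : PkOk q d) (ha : AR q d z) {k : Zo} (hk : Near k ∨ Off k)
    (hz : d.ch q k z ≠ 0) (hu : ∀ u, u < d.uth q + 1 → deriv d.Φ u ≤ Real.exp u) :
    d.N q z < Real.exp 1 * (q.nm * d.E q z) := by
  have hN : 0 < d.N q z := h.N_pos hc.gc.M1 _
  rcases sd_nRS hz hk (by linarith [hc.nm1]) hN with h1 | h1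
  · exact h1
  · exfalso
    have h2 := hu _ h1
    have h3 := ha.nm
    have h4 : d.N q z ≤ d.E q z := h2
    have hE0 : 0 < d.E q z := Real.exp_pos _
    have := hc.nm1
    nlinarith

/-! ## The gradients -/

/-- The gradients of the weight. -/
def Wx (q : Cst) (d : Pk n) (z : VV n) : V n := fun i => dx i (d.W q) z
def Wy (q : Cst) (d : Pk n) (z : VV n) : V n := fun i => dy i (d.W q) z

/-- `Ψ_f` in terms of `u₀`, `|x - y|²`. -/
def Gf (q : Cst) (d : Pk n) (z : VV n) : ℝ :=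
  q.D 1 0 (d.u0 z + Real.log (prS q.e₁ (qq z)), √(qq z))

/-- `Ψ_r`. -/
def Hf (q : Cst) (d : Pk n) (z : VV n) : ℝ :=
  q.D 0 1 (d.u0 z + Real.log (prS q.e₁ (qq z)), √(qq z))

/-- Off the diagonal: the derivative of the weight. -/
theorem fd_W (hc : RC n q) (h : PkOk q d) (hz : z ∈ UF q d) (hr : 0 < rr z) (v : VV n) :
    fderiv ℝ (d.W q) z v =
      (deriv d.Φ (d.u0 z) + Gf q d z) * (fderiv ℝ d.l z.1 v.1 + fderiv ℝ d.l z.2 v.2) +
      (prL q.e₁ (rr z) * Gf q d z + Hf q d z) / rr z * ∑ i, (z.1 i - z.2 i) * (v.1 i - v.2 i) := by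
  have hs : 0 < qq z := by rw [← rr_sq]; positivity
  have hsq : √(qq z) = rr z := rfl
  have he := hc.gc.rad.e0
  have hS : 0 < prS q.e₁ (qq z) := hc.gc.rad.pp.S_pos hs
  have ev : d.W q =ᶠ[𝓝 z] fun z => d.Φ (d.u0 z) +
      q.D 0 0 (d.u0 z + Real.log (prS q.e₁ (qq z)), √(qq z)) := by
    filter_upwards [(UF_open h).mem_nhds hz,
      (isOpen_lt continuous_const qq_sm.continuous).mem_nhds hs] with w hw hw'
    rw [(flt hc.n1 hc.inf h hw).W, st_out h.ok hw']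
    rfl
  rw [ev.fderiv_eq]
  have hu := u0_fd h z
  have hΦ : HasDerivAt d.Φ (deriv d.Φ (d.u0 z)) (d.u0 z) :=
    ((h.Φs.differentiable (by simp)) _).hasDerivAt
  have h1 := hΦ.comp_hasFDerivAt z hu
  have h2 := ((H606.EP.prS_d1 he (qq z)).comp_hasFDerivAt z (qq_fd z)).log hS.ne'
  have h3 := hu.add h2
  have h4 := (qq_fd z).sqrt hs.ne'
  have h5 := (h.sl.hd 0 0 (d.u0 z + Real.log (prS q.e₁ (qq z)), √(qq z))
    (Real.sqrt_pos.2 hs)).comp z (h3.prodMk h4)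
  have h6 := h1.add h5
  have h7 : HasFDerivAt (fun z => d.Φ (d.u0 z) +
      q.D 0 0 (d.u0 z + Real.log (prS q.e₁ (qq z)), √(qq z))) _ z := h6
  rw [h7.fderiv]
  have e1 : 2 * rr z * H606.EP.prS₁ q.e₁ (rr z ^ 2) = prL q.e₁ (rr z) * prS q.e₁ (rr z ^ 2) :=
    hc.gc.rad.pp.Ph1_L hr
  rw [rr_sq] at e1
  have e2 : H606.EP.prS₁ q.e₁ (qq z) / prS q.e₁ (qq z) * (2 * rr z) = prL q.e₁ (rr z) := by
    field_simp
    linarith
  simp only [add_apply, smul_apply, smul_eq_mul,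
    ContinuousLinearMap.comp_apply, ContinuousLinearMap.coe_fst', ContinuousLinearMap.coe_snd',
    Qd_apply, Function.comp_apply, H768.W.lf, ContinuousLinearMap.prod_apply]
  have eG : q.D (0 + 1) 0 (d.u0 z + Real.log (prS q.e₁ (qq z)), √(qq z)) = Gf q d z := rfl
  have eH : q.D 0 (0 + 1) (d.u0 z + Real.log (prS q.e₁ (qq z)), √(qq z)) = Hf q d z := rfl
  rw [eG, eH, hsq, ← e2]
  field_simp
  ring

end Vale.Agent.P088.R2.H551.RS
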