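import Vale.Agent.P088.R2.H551.RS.Grad
import Vale.Agent.P088.R2.H404.INF.Dc

/-!
# P088, stage 3, leaves `RSn`, `RSf`: the derivatives of the cut-offs

Where a leaf `RS` is alive, the first derivatives of the cut-offs of `RSn`, `RSf`, `z0`, `A1`,
`A2`, `Af` are bounded by a constant which does not depend on `R`: `sq_x`, `sq_y`.
-/

open Set Filter
open scoped ContDiff Topology Matrix

noncomputable section

namespace Vale.Agent.P088.R2.H551.RS

open Vale.Agent.P088.LR Vale.Agent.P088.HY Vale.Agent.P088.R2.H31.EP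
open Vale.Agent.P088.R2.H475
open Vale.Agent.P088.R2.H464.Cu (mid dif rq)
open Vale.Agent.P088.R2.H404.INF (InfC evInf lvG NearOk l₀_nonneg)
open Vale.Agent.P088.R2.H867.EP (Zo Cut cuts mem_cuts path sd RS Inf Near Off on on_nn on_le on_one
  on_zero tauD tauD_le tauR_le ch_sq fd_tauD fd_tauR tauV_bd Stp CP mem_zos)
open Vale.Agent.P088.R2.H932.EP (tauR tauU tauT)
open Vale.Agent.P088.R2.H710.GP (GC evG LS_bdd en en_nn en_sq en_tri en_tri' en_sm en_lo gl gx gy cq
  gl_near gx_eq gy_eq NO rr rr_nn rr_sq u0_fd qq_fd Qd Qd_apply cq_rr en_cq tb_x tb_y Tb.N_nm sq_gx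
  sq_gy NG_pos)

variable {n : ℕ} {q : Cst} {d : Pk n} {z : VV n}

/-! ## The smooth transition -/

theorem st_b1 : ∃ B, 1 ≤ B ∧ ∀ t, |deriv Real.smoothTransition t| ≤ B := by
  have hs : Stp Real.smoothTransition :=
    ⟨Real.smoothTransition.contDiff, Real.smoothTransition.nonneg, Real.smoothTransition.le_one,
      ⟨0, fun _ h => Real.smoothTransition.zero_of_nonpos h⟩,
      ⟨1, fun _ h => Real.smoothTransition.one_of_one_le h⟩⟩
  obtain ⟨B, h1, H⟩ := hs.bdd 1
  refine ⟨B, h1, fun t => ?_⟩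
  have := H t
  rwa [iteratedDeriv_one] at this

/-- The bound of the derivative of the smooth transition. -/
def cS : ℝ := st_b1.choose

theorem cS_one : 1 ≤ cS := st_b1.choose_spec.1

theorem cS_le (t : ℝ) : |deriv Real.smoothTransition t| ≤ cS := st_b1.choose_spec.2 t

theorem st_hd (t : ℝ) : HasDerivAt Real.smoothTransition (deriv Real.smoothTransition t) t :=
  ((Real.smoothTransition.contDiff (n := 1)).differentiable (by norm_num) t).hasDerivAt

/-- The derivative of the variable of the cut `rs`. -/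
theorem VS_d (h : PkOk q d) (hM : 1 ≤ q.M₀) (u : ℝ) :
    ∃ V', HasDerivAt (d.VS q) V' u ∧ |V'| ≤ cS * (q.L + 3) := by
  have hN : 0 < deriv d.Φ u := h.N_pos hM u
  have hK : 0 < deriv (deriv d.Φ) u := h.top.k0 u
  have hL := h.top.k2 u
  have h1 : HasDerivAt (fun u => Real.log (deriv d.Φ u) - u - Real.log q.nm)
      (deriv (deriv d.Φ) u / deriv d.Φ u - 1) u :=
    ((((h.Φ's.differentiable (by simp)) u).hasDerivAt.log hN.ne').sub
      (hasDerivAt_id u)).sub_const _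
  have h2 : HasDerivAt (fun u => u - d.uth q) 1 u := (hasDerivAt_id u).sub_const _
  have h3 := (st_hd _).comp u h1
  have h4 := (st_hd _).comp u h2
  have h5 := h3.mul h4
  refine ⟨_, h5, ?_⟩
  set a := deriv (deriv d.Φ) u / deriv d.Φ u
  have ha0 : 0 < a := div_pos hK hN
  have ha1 : a ≤ q.L + 1 / 20 := by
    rw [div_le_iff₀ hN]
    exact hL
  have b1 := cS_le (Real.log (deriv d.Φ u) - u - Real.log q.nm)
  have b2 := cS_le (u - d.uth q)
  have c1 := Real.smoothTransition.nonneg (Real.log (deriv d.Φ u) - u - Real.log q.nm)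
  have c2 := Real.smoothTransition.le_one (Real.log (deriv d.Φ u) - u - Real.log q.nm)
  have c3 := Real.smoothTransition.nonneg (u - d.uth q)
  have c4 := Real.smoothTransition.le_one (u - d.uth q)
  have hc := cS_one
  have e1 : |a - 1| ≤ q.L + 2 := by
    rw [abs_le]
    constructor <;> linarith
  refine (abs_add_le _ _).trans ?_
  simp only [Function.comp_apply]
  rw [abs_mul, abs_mul, abs_mul, abs_mul, abs_of_nonneg c1, abs_of_nonneg c3, abs_one, mul_one]
  have k1 : |deriv Real.smoothTransition (Real.log (deriv d.Φ u) - u - Real.log q.nm)| * |a - 1| ≤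
      cS * (q.L + 2) := mul_le_mul b1 e1 (abs_nonneg _) (by linarith)
  have k2 : |deriv Real.smoothTransition (Real.log (deriv d.Φ u) - u - Real.log q.nm)| * |a - 1| *
      Real.smoothTransition (u - d.uth q) ≤ cS * (q.L + 2) :=
    (mul_le_of_le_one_right (by positivity) c4).trans k1
  have k3 : Real.smoothTransition (Real.log (deriv d.Φ u) - u - Real.log q.nm) *
      |deriv Real.smoothTransition (u - d.uth q)| ≤ cS :=
    (mul_le_of_le_one_left (abs_nonneg _) c2).trans b2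
  linarith

/-! ## The variables near a point of `UF` -/

theorem u_ev (hc : RC n q) (h : PkOk q d) (hz : z ∈ UF q d) : d.u q =ᶠ[𝓝 z] d.u0 := by
  filter_upwards [(UF_open h).mem_nhds hz] with w hw
  exact (flt hc.n1 hc.inf h hw).u

theorem rq_ev (hc : RC n q) (h : PkOk q d) (hz : z ∈ UF q d) :
    rq (gi d.s₁) =ᶠ[𝓝 z] fun w => qq w / 2 := by
  filter_upwards [(UF_open h).mem_nhds hz] with w hw
  have h1 := (flt hc.n1 hc.inf h hw).r2
  have h2 : d.r2 w = 2 * rq (gi d.s₁) w := rfl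
  rw [h2] at h1
  linarith

/-- A direction. -/
structure Dr (q : Cst) (d : Pk n) (z v : VV n) : Prop where
  u : |fderiv ℝ (d.u q) z v| ≤ 2
  r : |fderiv ℝ (rq (gi d.s₁)) z v| ≤ rr z
  i : |fderiv ℝ (d.tinf q) z v| ≤ 300 / q.κ₁

theorem co_le (x : V n) (i : Fin n) : |x i| ≤ en x := by
  unfold en
  refine Real.abs_le_sqrt ?_
  exact Finset.single_le_sum (f := fun j => x j ^ 2) (fun j _ => sq_nonneg _) (Finset.mem_univ i)

theorem qh_fd (z v : VV n) : fderiv ℝ (fun w : VV n => qq w / 2) z v =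
    ∑ i, (z.1 i - z.2 i) * (v.1 i - v.2 i) := by
  have h := (qq_fd z).mul_const (1 / 2 : ℝ)
  have h1 : HasFDerivAt (fun w : VV n => qq w / 2) ((1 / 2 : ℝ) • Qd z) z := by
    refine h.congr_of_eventuallyEq (Eventually.of_forall fun w => ?_)
    show qq w / 2 = qq w * (1 / 2)
    ring
  rw [h1.fderiv, smul_apply, Qd_apply, smul_eq_mul]
  ring

theorem en_single (i : Fin n) : en (Pi.single i 1 : V n) = 1 := by
  unfold en
  have : HY.sq (Pi.single i 1 : V n) = 1 := by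
    show ∑ j, (Pi.single i (1 : ℝ) : V n) j ^ 2 = 1
    rw [Finset.sum_eq_single i]
    · simp
    · intro j _ hj
      simp [Pi.single_eq_of_ne hj]
    · simp
  rw [this, Real.sqrt_one]

theorem inf_le (hc : RC n q) (h : PkOk q d) {v : VV n} (hv : H404.INF.en2 v ≤ 1) :
    |fderiv ℝ (d.tinf q) z v| ≤ 300 / q.κ₁ := by
  refine (H404.INF.dtinf hc.inf h v).trans ?_
  have hk := hc.inf.κ0
  have hR := hc.R
  have h0 : 0 ≤ 300 / (q.κ₁ * q.R) := by positivity
  refine (mul_le_of_le_one_right h0 hv).trans ?_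
  refine div_le_div_of_nonneg_left (by norm_num) hk ?_
  nlinarith

theorem en2_x (i : Fin n) : H404.INF.en2 (Pi.single i 1, (0 : V n)) ≤ 1 := by
  show en (Pi.single i 1 : V n) + en (0 : V n) ≤ 1
  rw [en_single]
  have : en (0 : V n) = 0 := by
    have := en_sm (n := n) 0 0
    rw [zero_smul, abs_zero, zero_mul] at this
    exact this
  rw [this, add_zero]

theorem en2_y (i : Fin n) : H404.INF.en2 ((0 : V n), Pi.single i 1) ≤ 1 := by
  show en (0 : V n) + en (Pi.single i 1 : V n) ≤ 1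
  rw [en_single]
  have : en (0 : V n) = 0 := by
    have := en_sm (n := n) 0 0
    rw [zero_smul, abs_zero, zero_mul] at this
    exact this
  rw [this, zero_add]

theorem dr_x (hc : RC n q) (h : PkOk q d) (gf : GF q d z) (i : Fin n) :
    Dr q d z (Pi.single i 1, 0) := by
  constructor
  · rw [(u_ev hc h gf.ar.uf).fderiv_eq, (u0_fd h z).fderiv]
    have e : ((fderiv ℝ d.l z.1).comp (ContinuousLinearMap.fst ℝ (V n) (V n)) +
        (fderiv ℝ d.l z.2).comp (ContinuousLinearMap.snd ℝ (V n) (V n)))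
        ((Pi.single i 1 : V n), (0 : V n)) = gl d.l z.1 i := by
      simp [gl, pd]
    rw [e]
    exact (co_le _ i).trans gf.gr.gx1
  · rw [(rq_ev hc h gf.ar.uf).fderiv_eq, qh_fd]
    have e : ∑ j, (z.1 j - z.2 j) * ((Pi.single i (1 : ℝ) : V n) j - (0 : V n) j) =
        (z.1 - z.2) i := by
      rw [Finset.sum_eq_single i]
      · simp
      · intro j _ hj
        simp [Pi.single_eq_of_ne hj]
      · simp
    rw [e]
    exact co_le _ i
  · exact inf_le hc h (en2_x i)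

theorem dr_y (hc : RC n q) (h : PkOk q d) (gf : GF q d z) (i : Fin n) :
    Dr q d z (0, Pi.single i 1) := by
  constructor
  · rw [(u_ev hc h gf.ar.uf).fderiv_eq, (u0_fd h z).fderiv]
    have e : ((fderiv ℝ d.l z.1).comp (ContinuousLinearMap.fst ℝ (V n) (V n)) +
        (fderiv ℝ d.l z.2).comp (ContinuousLinearMap.snd ℝ (V n) (V n)))
        ((0 : V n), (Pi.single i 1 : V n)) = gl d.l z.2 i := by
      simp [gl, pd]
    rw [e]
    exact (co_le _ i).trans gf.gr.gy1
  · rw [(rq_ev hc h gf.ar.uf).fderiv_eq, qh_fd]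
    have e : ∑ j, (z.1 j - z.2 j) * ((0 : V n) j - (Pi.single i (1 : ℝ) : V n) j) =
        -(z.1 - z.2) i := by
      rw [Finset.sum_eq_single i]
      · simp
      · intro j _ hj
        simp [Pi.single_eq_of_ne hj]
      · simp
    rw [e, abs_neg]
    exact co_le _ i
  · exact inf_le hc h (en2_y i)

/-! ## The layers -/

/-- The leaves which meet the leaves `RS`. -/
def Al (k : Zo) : Prop :=
  k = .RSn ∨ k = .RSf ∨ k = .z0 ∨ k = .A1 ∨ k = .A2 ∨ k = .Af

theorem al_RS {k : Zo} (hk : RS k) : Al k := by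
  rcases hk with rfl | rfl
  · exact Or.inl rfl
  · exact Or.inr (Or.inl rfl)

/-- The bounds of the squares of the derivatives. -/
def bc (q : Cst) : Cut → ℝ
  | .inf => (300 / q.κ₁) ^ 2
  | .rs => (cS * (q.L + 3) * 2) ^ 2
  | .rS => (2 / ((prR q.e₁ + 1) ^ 2 - prR q.e₁ ^ 2) * (prR q.e₁ + 1)) ^ 2
  | .r => (2 / (3 * q.c₀ ^ 2) * (2 * q.c₀)) ^ 2
  | .far => (2 / ((2 * q.p₁) ^ 2 - (3 / 2 * q.p₁) ^ 2) * (2 * q.p₁)) ^ 2
  | .rp => (2 / (q.p₂ ^ 2 - q.p₁ ^ 2) * q.p₂) ^ 2
  | _ => 0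

theorem bc_nn (q : Cst) (i : Cut) : 0 ≤ bc q i := by
  cases i <;> simp only [bc] <;> positivity

/-- The bound of the squares of the derivatives of the cut-offs. -/
def CZ (q : Cst) : ℝ := 7 * BF ^ 2 * ∑ i ∈ cuts, bc q i

theorem CZ_nn (q : Cst) : 0 ≤ CZ q :=
  mul_nonneg (by positivity) (Finset.sum_nonneg fun i _ => bc_nn q i)

theorem on_D {a b : ℝ} (ha : 0 < a) (hb : a < b) {ρ : VV n → ℝ} (hρ : DifferentiableAt ℝ ρ z)
    (e : 2 * ρ z = rr z ^ 2) {v : VV n} (hv : |fderiv ℝ ρ z v| ≤ rr z) :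
    on (tauD a b ρ z) * fderiv ℝ (tauD a b ρ) z v ^ 2 ≤ (2 / (b ^ 2 - a ^ 2) * b) ^ 2 := by
  by_cases ho : 0 < tauD a b ρ z ∧ tauD a b ρ z < 1
  · rw [on_one ho, one_mul, fd_tauD a b hρ v, ← sq_abs]
    have h1 := tauD_le ha hb ho.2.le
    rw [e] at h1
    have h2 : rr z ≤ b := (abs_le_of_sq_le_sq' h1 (by linarith)).2
    have h3 : 0 < b ^ 2 - a ^ 2 := H867.EP.sq_lt ha hb
    rw [abs_mul, abs_of_pos (by positivity : 0 < 2 / (b ^ 2 - a ^ 2))]
    have h4 : 2 / (b ^ 2 - a ^ 2) * |fderiv ℝ ρ z v| ≤ 2 / (b ^ 2 - a ^ 2) * b :=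
      mul_le_mul_of_nonneg_left (hv.trans h2) (by positivity)
    gcongr
  · rw [on_zero ho, zero_mul]
    positivity

theorem on_R {c : ℝ} (hc : 0 < c) {ρ : VV n → ℝ} (hρ : DifferentiableAt ℝ ρ z)
    (e : 2 * ρ z = rr z ^ 2) {v : VV n} (hv : |fderiv ℝ ρ z v| ≤ rr z) :
    on (tauR c ρ z) * fderiv ℝ (tauR c ρ) z v ^ 2 ≤ (2 / (3 * c ^ 2) * (2 * c)) ^ 2 := by
  by_cases ho : 0 < tauR c ρ z ∧ tauR c ρ z < 1
  · rw [on_one ho, one_mul, fd_tauR c hρ v, ← sq_abs]
    have h1 := tauR_le hc ho.2.le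
    rw [e] at h1
    have h2 : rr z ≤ 2 * c := (abs_le_of_sq_le_sq' (by nlinarith : rr z ^ 2 ≤ (2 * c) ^ 2)
      (by linarith)).2
    rw [abs_mul, abs_of_pos (by positivity : 0 < 2 / (3 * c ^ 2))]
    have h4 : 2 / (3 * c ^ 2) * |fderiv ℝ ρ z v| ≤ 2 / (3 * c ^ 2) * (2 * c) :=
      mul_le_mul_of_nonneg_left (hv.trans h2) (by positivity)
    gcongr
  · rw [on_zero ho, zero_mul]
    positivity

/-- **The tubes and the passes are dead.** -/
theorem no_tube (hc : RC n q) (h : PkOk q d) (gf : GF q d z) (h0 : 0 < rr z)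
    (h1 : rr z ≤ 2 * q.p₁) :
    1 / 20 * d.NG q z < en (gx d q z) ∧ 1 / 20 * d.NG q z < en (gy d q z) := by
  have hN := gf.ar.nm
  rw [gf.Nf] at hN
  have hE : d.E q z = Real.exp (d.u0 z) := by
    unfold Pk.E
    rw [gf.fl.u]
  rw [hE] at hN
  have hn := hc.nm1
  have he := Real.exp_pos (d.u0 z)
  constructor
  · by_contra hcon
    have hT := tb_x hc.gc h gf.ar.no h0 h1 le_rfl (not_lt.1 hcon)
    have := hT.N_nm hc.gc h h0 h1 le_rfl
    nlinarith
  · by_contra hcon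
    have hT := tb_y hc.gc h gf.ar.no h0 h1 le_rfl (not_lt.1 hcon)
    have := hT.N_nm hc.gc h h0 h1 le_rfl
    nlinarith

theorem tx_ge (hc : RC n q) (h : PkOk q d) (gf : GF q d z) (h0 : 0 < rr z)
    (h1 : rr z ≤ 2 * q.p₁) {t : ℝ} (ht : 0 < t) (ht1 : t ≤ 1 / 20) : 1 ≤ d.tx q t z := by
  by_contra hcon
  have hG := NG_pos hc.gc h z
  have h2 := tx_lt ht hG (not_le.1 hcon)
  rw [sq_gx] at h2
  have h3 := (no_tube hc h gf h0 h1).1
  have h4 : t * d.NG q z ≤ 1 / 20 * d.NG q z := mul_le_mul_of_nonneg_right ht1 hG.le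
  have h5 : en (gx d q z) < t * d.NG q z := by
    refine lt_of_pow_lt_pow_left₀ 2 (by positivity) h2
  linarith

theorem ty_ge (hc : RC n q) (h : PkOk q d) (gf : GF q d z) (h0 : 0 < rr z)
    (h1 : rr z ≤ 2 * q.p₁) {t : ℝ} (ht : 0 < t) (ht1 : t ≤ 1 / 20) : 1 ≤ d.ty q t z := by
  by_contra hcon
  have hG := NG_pos hc.gc h z
  have h2 := ty_lt ht hG (not_le.1 hcon)
  rw [sq_gy] at h2
  have h3 := (no_tube hc h gf h0 h1).2
  have h4 : t * d.NG q z ≤ 1 / 20 * d.NG q z := mul_le_mul_of_nonneg_right ht1 hG.le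
  have h5 : en (gy d q z) < t * d.NG q z := by
    refine lt_of_pow_lt_pow_left₀ 2 (by positivity) h2
  linarith

theorem rr2 (gf : GF q d z) : rr z ^ 2 = d.r2 z := by rw [rr_sq, gf.fl.r2]

/-- **One layer.** -/
theorem on_bd (hc : RC n q) (h : PkOk q d) (ls : LitSm q d) (gf : GF q d z)
    {k : Zo} (hk : Al k) (hz : d.ch q k z ≠ 0) {i : Cut} (hi : i ∈ path k)
    {v : VV n} (hv : Dr q d z v) :
    on (d.cv q i z) * fderiv ℝ (d.cv q i) z v ^ 2 ≤ bc q i := by
  have e : 2 * rq (gi d.s₁) z = rr z ^ 2 := by rw [rr2 gf]; rfl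
  have hρ : DifferentiableAt ℝ (rq (gi d.s₁)) z := (ls.rq.differentiable (by simp)) z
  have hu : DifferentiableAt ℝ (d.u q) z := (ls.u.differentiable (by simp)) z
  have hP := ls.cp
  have off : on (d.cv q i z) = 0 → on (d.cv q i z) * fderiv ℝ (d.cv q i) z v ^ 2 ≤ bc q i := by
    intro h0
    rw [h0, zero_mul]
    exact bc_nn q i
  have hN : 0 < d.N q z := h.N_pos hc.gc.M1 _
  have hrT := hc.gc.rT0
  have hrT1 := hc.gc.rT1
  have hr0 : ∀ {k : Zo}, d.ch q k z ≠ 0 → Off k → 0 < rr z := fun hz hk => by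
    have h1 := sd_off hz hk hP
    rw [← rr2 gf] at h1
    have h2 := hc.pos.1
    have h3 : 0 < rr z ^ 2 := lt_of_lt_of_le (by positivity) h1
    exact lt_of_le_of_ne (rr_nn z) fun h4 => by rw [← h4] at h3; norm_num at h3
  have hp1 := Cst.p₁_ge hc.gc.rad
  have hp2 := Cst.p₂_lt hc.gc.rad
  have hp12 := Cst.p₁_lt hc.gc.rad
  cases i with
  | inf =>
    have h1 : |fderiv ℝ (d.cv q .inf) z v| ≤ 300 / q.κ₁ := hv.i
    have h4 : fderiv ℝ (d.cv q .inf) z v ^ 2 ≤ (300 / q.κ₁) ^ 2 := by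
      rw [← sq_abs]
      gcongr
    exact (mul_le_of_le_one_left (sq_nonneg _) (on_le _)).trans h4
  | rs =>
    obtain ⟨V', hV, hV1⟩ := VS_d h hc.gc.M1 (d.u q z)
    have h1 := tauV_bd (a := 0) (w := 1) one_pos hV hV1 hu v
    rw [div_one] at h1
    have h2 : |fderiv ℝ (d.cv q .rs) z v| ≤ cS * (q.L + 3) * |fderiv ℝ (d.u q) z v| := h1
    have h5 : 0 ≤ cS * (q.L + 3) := (abs_nonneg _).trans hV1
    have h3 : |fderiv ℝ (d.cv q .rs) z v| ≤ cS * (q.L + 3) * 2 :=
      h2.trans (mul_le_mul_of_nonneg_left hv.u h5)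
    have h4 : fderiv ℝ (d.cv q .rs) z v ^ 2 ≤ (cS * (q.L + 3) * 2) ^ 2 := by
      rw [← sq_abs]
      gcongr
    exact (mul_le_of_le_one_left (sq_nonneg _) (on_le _)).trans h4
  | rS => exact on_D hP.q₁ hP.q₂ hρ e hv.r
  | r => exact on_R hP.c₀ hρ e hv.r
  | e0 =>
    refine off (on_zero fun ho => ?_)
    have h1 : 0 < tauU (d.cp q).u₀ (d.cp q).w₀ (fun w => (d.cp q).V₀ (d.u q w)) z := ho.1
    have h2 := H867.EP.tauU_ge (u := fun w => (d.cp q).V₀ (d.u q w)) hP.w₀ h1.le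
    have h3 : -Real.log q.aC ≤ d.u q z - Real.log (d.N q z) := h2
    have h4 : Real.log (d.N q z) ≤ Real.log (q.aC * d.E q z) := by
      unfold Pk.E
      rw [Real.log_mul hc.aC0.ne' (Real.exp_pos _).ne', Real.log_exp]
      linarith
    have h5 : d.N q z ≤ q.aC * d.E q z :=
      (Real.log_le_log_iff hN (mul_pos hc.aC0 (Real.exp_pos _))).1 h4
    have h6 := gf.ar.nm
    have h7 : 0 < d.E q z := Real.exp_pos _
    have h8 := hc.aC1
    have h9 := hc.nm1
    nlinarith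
  | far =>
    exact on_D hP.r₁ hP.r₂ hρ e hv.r
  | rp => exact on_D hP.p₁ hP.p₂ hρ e hv.r
  | T1 =>
    have hk' : k = .A1 := by
      rcases hk with rfl | rfl | rfl | rfl | rfl | rfl <;> revert hi <;> decide
    subst hk'
    refine off (on_zero fun ho => ?_)
    have h1 : rr z ≤ 2 * q.p₁ := by
      have h2 := sd_T hz (Or.inr (Or.inr rfl)) hP
      rw [← rr2 gf] at h2
      have := (abs_le_of_sq_le_sq' h2 (by linarith)).2
      linarith
    have h3 := tx_ge hc h gf (hr0 hz (by unfold Off; decide)) h1 hrT (by linarith)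
    have h4 : d.tx q q.rT z < 1 := ho.2
    linarith
  | T2 =>
    have hk' : k = .A1 := by
      rcases hk with rfl | rfl | rfl | rfl | rfl | rfl <;> revert hi <;> decide
    subst hk'
    refine off (on_zero fun ho => ?_)
    have h1 : rr z ≤ 2 * q.p₁ := by
      have h2 := sd_T hz (Or.inr (Or.inr rfl)) hP
      rw [← rr2 gf] at h2
      have := (abs_le_of_sq_le_sq' h2 (by linarith)).2
      linarith
    have h3 := ty_ge hc h gf (hr0 hz (by unfold Off; decide)) h1 hrT (by linarith)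
    have h4 : d.ty q q.rT z < 1 := ho.2
    linarith
  | P1 =>
    have hk' : k = .A2 := by
      rcases hk with rfl | rfl | rfl | rfl | rfl | rfl <;> revert hi <;> decide
    subst hk'
    refine off (on_zero fun ho => ?_)
    have h1 : rr z ≤ 2 * q.p₁ := by
      have h2 := sd_nf hz (by unfold Off; decide) (by decide) hP
      rw [← rr2 gf] at h2
      exact (abs_le_of_sq_le_sq' h2 (by linarith)).2
    have h3 := tx_ge hc h gf (hr0 hz (by unfold Off; decide)) h1 (t := 4 * q.rT) (by linarith)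
      (by linarith)
    have h4 : d.tx q (4 * q.rT) z < 1 := ho.2
    linarith
  | P2 =>
    have hk' : k = .A2 := by
      rcases hk with rfl | rfl | rfl | rfl | rfl | rfl <;> revert hi <;> decide
    subst hk'
    refine off (on_zero fun ho => ?_)
    have h1 : rr z ≤ 2 * q.p₁ := by
      have h2 := sd_nf hz (by unfold Off; decide) (by decide) hP
      rw [← rr2 gf] at h2
      exact (abs_le_of_sq_le_sq' h2 (by linarith)).2
    have h3 := ty_ge hc h gf (hr0 hz (by unfold Off; decide)) h1 (t := 4 * q.rT) (by linarith)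
      (by linarith)
    have h4 : d.ty q (4 * q.rT) z < 1 := ho.2
    linarith
  | _ =>
    exfalso
    rcases hk with rfl | rfl | rfl | rfl | rfl | rfl <;> revert hi <;> decide

/-- **One direction.** -/
theorem ch_dir (hc : RC n q) (h : PkOk q d) (ls : LitSm q d) (gf : GF q d z)
    {k : Zo} (hk : Al k) (hz : d.ch q k z ≠ 0) {v : VV n}
    (hv : Dr q d z v) : fderiv ℝ (d.ch q k) z v ^ 2 ≤ CZ q := by
  have h1 := ch_sq Fl_PB isOpen_univ k (τ := d.cv q) (fun i _ => (ls.cv i).contDiffOn)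
    (mem_univ z) v
  refine h1.trans ?_
  unfold CZ
  refine mul_le_mul_of_nonneg_left ?_ (by positivity)
  calc ∑ i ∈ path k, on (d.cv q i z) * fderiv ℝ (d.cv q i) z v ^ 2 ≤ ∑ i ∈ path k, bc q i :=
        Finset.sum_le_sum fun i hi => on_bd hc h ls gf hk hz hi hv
    _ ≤ ∑ i ∈ cuts, bc q i :=
        Finset.sum_le_sum_of_subset_of_nonneg (fun i _ => mem_cuts i) fun i _ _ => bc_nn q i

theorem sum_le {f : Fin n → ℝ} {C : ℝ} (h : ∀ i, f i ≤ C) : ∑ i, f i ≤ n * C := by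
  refine (Finset.sum_le_sum fun i _ => h i).trans (le_of_eq ?_)
  rw [Finset.sum_const, Finset.card_univ, Fintype.card_fin, nsmul_eq_mul]

/-- **The derivatives of the cut-offs.** -/
theorem sq_x (hc : RC n q) (h : PkOk q d) (ls : LitSm q d) (gf : GF q d z)
    {k : Zo} (hk : Al k) (hz : d.ch q k z ≠ 0) :
    ∑ i, dx i (d.ch q k) z ^ 2 ≤ n * CZ q :=
  sum_le fun i => ch_dir hc h ls gf hk hz (dr_x hc h gf i)

theorem sq_y (hc : RC n q) (h : PkOk q d) (ls : LitSm q d) (gf : GF q d z)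
    {k : Zo} (hk : Al k) (hz : d.ch q k z ≠ 0) :
    ∑ i, dy i (d.ch q k) z ^ 2 ≤ n * CZ q :=
  sum_le fun i => ch_dir hc h ls gf hk hz (dr_y hc h gf i)

end Vale.Agent.P088.R2.H551.RS
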