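import Vale.Agent.P088.R2.H509.EP.Side
import Vale.Agent.P088.R2.H710.EP.GQ
import Vale.Agent.P088.R2.H222.PkR

/-!
# P088, stage 3, leaves `RSn`, `RSf`: the geometry

`RC n q`: the conditions on the constants (`evRC`). Where a leaf `RS` is alive the pair lies in the
open set `UF`: flat metric, no correction, `P = id`, `Θ = 0`. `w_eq`: the weight there; `gx_bd`,
`gy_bd`: its gradients.
-/

open Set Filter
open scoped ContDiff Topology Matrix

noncomputable section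

namespace Vale.Agent.P088.R2.H551.RS

open Vale.Agent.P088.LR Vale.Agent.P088.HY Vale.Agent.P088.R2.H31.EP
open Vale.Agent.P088.R2.H475
open Vale.Agent.P088.R2.H464.Cu (mid dif rq)
open Vale.Agent.P088.R2.H404.INF (InfC evInf lvG NearOk l₀_nonneg)
open Vale.Agent.P088.R2.H867.EP (Zo path sd RS Inf Near Off)
open Vale.Agent.P088.R2.H222 (dl)

variable {n : ℕ} {q : Cst} {d : Pk n} {z : VV n}

/-- The reverse pass up to the distance `R / 50` (open). -/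
def UF (q : Cst) (d : Pk n) : Set (VV n) :=
  {z | qq z < (1 / 50 * q.R) ^ 2 ∧ d.l₀ q + 107 / 100 * q.R < d.l z.1 ∧
    d.l₀ q + 107 / 100 * q.R < d.l z.2 ∧ d.l z.1 < d.l₀ q + 5 / 2 * q.R ∧
    d.l z.2 < d.l₀ q + 5 / 2 * q.R}

theorem UF_open (h : PkOk q d) : IsOpen (UF q d) := by
  have hl := h.l_sm.continuous
  have c1 : Continuous fun z : VV n => d.l z.1 := hl.comp continuous_fst
  have c2 : Continuous fun z : VV n => d.l z.2 := hl.comp continuous_snd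
  exact (isOpen_lt qq_sm.continuous continuous_const).inter
    ((isOpen_lt continuous_const c1).inter ((isOpen_lt continuous_const c2).inter
      ((isOpen_lt c1 continuous_const).inter (isOpen_lt c2 continuous_const))))

/-- `|u - u₀| ≤ 1/4`. -/
theorem u_sub (h : PkOk q d) (z : VV n) : |d.u q z - d.u0 z| ≤ 1 / 4 := by
  have e : d.u q z - d.u0 z = 2 * (d.χ (d.r2 z) * d.μc q (d.l (mid z))) := by
    show H31.EP.uu (d.F q) d.l (gi d.s₁) z - (d.l z.1 + d.l z.2) = _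
    unfold H31.EP.uu
    have : (d.F q).χ (H31.EP.r2 (gi d.s₁) z) * (d.F q).μ (d.l (mid z)) =
      d.χ (d.r2 z) * d.μc q (d.l (mid z)) := rfl
    rw [this]
    ring
  rw [e, abs_mul, abs_mul]
  have h1 := h.χb (d.r2 z)
  have h2 : |d.χ (d.r2 z)| ≤ 1 := by rw [abs_of_nonneg h1.1]; exact h1.2
  have h3 : |d.μc q (d.l (mid z))| ≤ 1 / 8 := (Pk.μc_abs d q _).trans (h.ph.μb _)
  have h4 : |d.χ (d.r2 z)| * |d.μc q (d.l (mid z))| ≤ 1 * (1 / 8) :=
    mul_le_mul h2 h3 (abs_nonneg _) zero_le_one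
  rw [abs_of_pos (by norm_num : (0 : ℝ) < 2)]
  linarith

/-- The level at the middle. -/
theorem mid_l (hq : InfC q) (h : PkOk q d) (hz : z ∈ UF q d) :
    |d.l (mid z) - d.l z.1| ≤ 1 / 90 * q.R := by
  obtain ⟨a1, a2, a3, a4, a5⟩ := hz
  have hR := hq.R0
  have hσ := hq.σ0
  have hσ1 := hq.σ1
  have hL := lvG hq h
  have g1 : H475.gg n q.σ (q.R⁻¹ • z.1) ≤ 5 / 2 := (hL.l12 _).2 a4.le
  have g2 : H475.gg n q.σ (q.R⁻¹ • z.2) ≤ 5 / 2 := (hL.l12 _).2 a5.le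
  have t1 := hL.g.t_le hσ (by norm_num) g1
  have t2 := hL.g.t_le hσ (by norm_num) g2
  have em : wv n q.σ (q.R⁻¹ • mid z) = (1 / 2 : ℝ) • (wv n q.σ (q.R⁻¹ • z.1) +
      wv n q.σ (q.R⁻¹ • z.2)) := by
    funext i
    simp only [wv, mid, Pi.smul_apply, Pi.add_apply, smul_eq_mul]
    ring
  have tm : √(HY.sq (wv n q.σ (q.R⁻¹ • mid z))) ≤ 101 / 100 := by
    rw [em, en_smul]
    have h1 := en_add (wv n q.σ (q.R⁻¹ • z.1)) (wv n q.σ (q.R⁻¹ • z.2))
    have h2 : |(1 / 2 : ℝ)| = 1 / 2 := by norm_num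
    rw [h2]
    nlinarith
  have h3 := hL.g.lip _ _ tm (show √(HY.sq (wv n q.σ (q.R⁻¹ • z.1))) ≤ 101 / 100 by nlinarith)
  rw [H404.INF.en_div hR, hL.gl, hL.gl, ← sub_div, abs_div, abs_of_pos hR] at h3
  have h4 : √(HY.sq (mid z - z.1)) ≤ 1 / 100 * q.R := by
    have e : mid z - z.1 = (1 / 2 : ℝ) • (z.2 - z.1) := by
      unfold mid
      module
    rw [e, en_smul, show |(1 / 2 : ℝ)| = 1 / 2 by norm_num, H404.INF.sq_swap]
    have h5 : √(HY.sq (z.1 - z.2)) ≤ 1 / 50 * q.R := by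
      rw [Real.sqrt_le_left (by positivity)]
      exact a1.le
    linarith
  have h6 : |d.l (mid z) - d.l₀ q - (d.l z.1 - d.l₀ q)| ≤ 101 / 100 * (1 / 100 * q.R) := by
    rw [div_le_iff₀ hR] at h3
    refine h3.trans ?_
    have : 101 / 100 * (√(HY.sq (mid z - z.1)) / q.R) * q.R =
      101 / 100 * √(HY.sq (mid z - z.1)) := by field_simp
    rw [this]
    linarith
  have e : d.l (mid z) - d.l₀ q - (d.l z.1 - d.l₀ q) = d.l (mid z) - d.l z.1 := by ring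
  rw [e] at h6
  linarith

/-- What is known on `UF`. -/
structure Flt (q : Cst) (d : Pk n) (z : VV n) : Prop where
  s₁x : d.s₁ z.1 = 1
  s₂x : d.s₂ z.1 = 1
  s₁y : d.s₁ z.2 = 1
  s₂y : d.s₂ z.2 = 1
  sm : d.s₁ (mid z) = 1
  μ : d.μc q (d.l (mid z)) = 0
  u : d.u q z = d.u0 z
  r2 : d.r2 z = qq z
  Px : d.P z.1 = z.1
  Py : d.P z.2 = z.2
  Θx : d.Θ (d.l z.1) = 0
  Θy : d.Θ (d.l z.2) = 0
  W : d.W q z = d.Φ (d.u0 z) + st (d.F q) (d.u0 z) (qq z)

theorem flt (hn : 1 ≤ n) (hq : InfC q) (h : PkOk q d) (hz : z ∈ UF q d) : Flt q d z := by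
  have hR := hq.R0
  have hm := abs_le.1 (mid_l hq h hz)
  obtain ⟨a1, a2, a3, a4, a5⟩ := hz
  have fl : ∀ x, d.l₀ q + 21 / 20 * q.R ≤ d.l x → d.s₁ x = 1 ∧ d.s₂ x = 1 := fun x hx =>
    H222.flat hn h hq.σ0 hq.σ1 hR hx
  have f1 := fl z.1 (by linarith)
  have f2 := fl z.2 (by linarith)
  have f3 := fl (mid z) (by linarith)
  have hμ : d.μc q (d.l (mid z)) = 0 := d.μc_zero q hR (by linarith)
  have hu : d.u q z = d.u0 z := by
    unfold Pk.u H31.EP.uu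
    have e : (d.F q).μ (d.l (mid z)) = 0 := hμ
    rw [e]
    unfold Pk.u0
    ring
  have hr2 : d.r2 z = qq z := by
    have h1 := H222.r2_sub_qq (gi d.s₁) z
    have h2 : gi d.s₁ (mid z) = 1 := by
      unfold gi
      rw [f3.1, inv_one]
    simp only [h2, dl, sub_self, zero_mul, Finset.sum_const_zero] at h1
    have h3 : H31.EP.r2 (gi d.s₁) z = d.r2 z := rfl
    have h4 : qq z = ∑ i, (dif z i) ^ 2 := rfl
    have h5 : H222.qq z = ∑ i, (dif z i) ^ 2 := rfl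
    rw [h3] at h1
    linarith
  have hP1 := h.ret.id z.1 (by linarith)
  have hP2 := h.ret.id z.2 (by linarith)
  have hΘ1 := h.Θ0 (d.l z.1) (by linarith)
  have hΘ2 := h.Θ0 (d.l z.2) (by linarith)
  refine ⟨f1.1, f1.2, f2.1, f2.2, f3.1, hμ, hu, hr2, hP1, hP2, hΘ1, hΘ2, ?_⟩
  have hu' : H31.EP.uu (d.F q) d.l (gi d.s₁) z = d.u0 z := hu
  have hr' : H31.EP.r2 (gi d.s₁) z = qq z := hr2
  unfold Pk.W WT WW
  rw [hP1, hP2, hΘ1, hΘ2]
  simp only [Prod.mk.eta]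
  rw [hu', hr']
  have hX : (d.F q).X (d.u0 z) = 1 := rfl
  have hF : (d.F q).Φ (d.u0 z) = d.Φ (d.u0 z) := rfl
  rw [hX, hF]
  ring

end Vale.Agent.P088.R2.H551.RS
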