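import Vale.Agent.P088.R2.H551.RS.Pay

/-!
# P088, stage 3, payments of the layers of the leaves `RSn`, `RSf`: the letters

`payW_all`: for the letters of `Lett`, all pairs of the leaves `RSn`, `RSf`, `z0`, `A1`, `A2`, `Af`
with at least one leaf `RS`, for every `e` (no condition on the cut `inf`).
-/

open Set Filter
open scoped ContDiff Topology Matrix

noncomputable section

namespace Vale.Agent.P088.R2.H551.RS

open Vale.Agent.P088.LR Vale.Agent.P088.HY Vale.Agent.P088.R2.H31.EP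
open Vale.Agent.P088.R2.H475
open Vale.Agent.P088.R2.H464.Cu (mid dif rq)
open Vale.Agent.P088.R2.H404.INF (InfC evInf lvG NearOk l₀_nonneg)
open Vale.Agent.P088.R2.H867.EP (Zo Cut cuts path sd RS Inf Near Off)
open Vale.Agent.P088.R2.H867.Z (sq1)
open Vale.Agent.P088.R2.H710.GP (en en_nn en_sq rr rr_nn rr_sq NG_pos)
open Vale.Agent.P088.R2.H455.E
open Vale.Agent.P088.R2.H558.G (RowPayW PayEW)
open Vale.Agent.P088.R2.H551.E
open Vale.Agent.P088.R2.H747.SW (MA coA rh)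

variable {n : ℕ} {q : Cst} {d : Pk n} {z : VV n}

/-! ## Numbers -/

theorem s_le (hc : RC n q) : 0 < q.σ / q.R ∧ q.σ / q.R ≤ 1 := by
  have h1 := hc.inf.σ0
  have h2 := hc.inf.σ1
  have h3 := hc.R
  exact ⟨div_pos h1 (by linarith), (div_le_one (by linarith)).2 (by linarith)⟩

/-- `G₀ ≤ N` near the diagonal. -/
theorem G0_le (hc : RC n q) (gf : GF q d z) (hr : rr z ≤ prR q.e₁ + 1) : d.G0 q z ≤ d.N q z := by
  have hN := gf.ar.nm
  have hE : d.E q z = Real.exp (d.u0 z) := by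
    unfold Pk.E
    rw [gf.fl.u]
  rw [hE] at hN
  have he := Real.exp_pos (d.u0 z)
  have hn := hc.nm1
  rcases (rr_nn z).lt_or_eq with h0 | h0
  · have h1 := hc.nm _ h0 hr
    have h2 : Li ≤ prL q.e₁ (rr z) := hc.gc.rad.pp.Li_le _
    have h3 : 0 < prS q.e₁ (rr z ^ 2) := hc.gc.rad.pp.S_pos (by positivity)
    have h4 : d.G0 q z = Real.exp (d.u0 z) * prS q.e₁ (rr z ^ 2) := by
      unfold Pk.G0
      rw [rr_sq]
    rw [h4]
    have h5 : 4 / 5 * prS q.e₁ (rr z ^ 2) ≤ prL q.e₁ (rr z) * prS q.e₁ (rr z ^ 2) := by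
      refine mul_le_mul_of_nonneg_right ?_ h3.le
      unfold Li at h2
      exact h2
    nlinarith
  · have h1 : qq z = 0 := by rw [← rr_sq, ← h0]; norm_num
    have h2 : prS q.e₁ 0 = 0 := by
      have h5 : (0 : ℝ) ≤ rp ^ 2 := sq_nonneg _
      have h3 : prS q.e₁ 0 = H644.Fs (2 ^ 2) 0 := hc.gc.rad.pp.Ph_eq h5
      have h4 := H644.Fs_sq_mul 2 0
      norm_num at h4
      rw [h3]
      norm_num
      exact h4
    unfold Pk.G0
    rw [h1, h2, mul_zero]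
    nlinarith

theorem rd_lt (hc : RC n q) (hr : rr z ≤ prR q.e₁ + 1) : rr z < rd q :=
  hr.trans_lt hc.rd

theorem nt_NG (hc : RC n q) (h : PkOk q d) (hr : rr z ≤ prR q.e₁ + 1) : nt q d z = d.NG q z := by
  unfold nt Pk.NG
  rw [Gt_near hc h (rd_lt hc hr)]

theorem nt_Gf (h0 : 0 < rr z) : nt q d z = deriv d.Φ (d.u0 z) + Gf q d z := by
  unfold nt Gt
  rw [if_pos h0]

theorem nt_le (hc : RC n q) (h : PkOk q d) (gf : GF q d z) (hr : rr z ≤ prR q.e₁ + 1) :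
    nt q d z ≤ 2 * d.N q z := by
  have h1 := G0_le hc gf hr
  have h2 := gf.Nf
  rw [nt_NG hc h hr]
  unfold Pk.NG
  rw [← h2]
  linarith

/-! ## The functions `m` -/

theorem mb_RSn (hn : 1 ≤ n) : MBR (n := n) (fun q d z => q.σ / q.R * d.NG q z) .RSn := by
  refine ⟨fun _ => 1, fun _ => 1, fun _ => rfl, fun _ => rfl,
    ((evRC hn).and (EvC.litSm n)).mono ?_⟩
  rintro q ⟨hc, ls⟩
  refine ⟨one_pos, zero_le_one, fun d h z gf hz => ?_⟩
  have h1 := sd_RSn hz (ls d h).cp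
  rw [← rr2 gf] at h1
  have hp := prR_pos q.e₁
  have h2 : rr z ≤ prR q.e₁ + 1 := (abs_le_of_sq_le_sq' h1 (by linarith)).2
  have h3 := nt_NG hc h h2
  have h4 := gf.gr.nt0
  have h5 := s_le hc
  constructor
  · show 1 * (q.σ / q.R) * nt q d z ≤ q.σ / q.R * d.NG q z
    rw [h3, one_mul]
  · show q.σ / q.R * d.NG q z ≤ 1 * nt q d z
    rw [← h3]
    exact mul_le_mul_of_nonneg_right h5.2 h4.le

theorem mb_RSf (hn : 1 ≤ n) : MBR (n := n) (fun q d z => q.σ / (2 * q.R) * (deriv d.Φ (d.u0 z) +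
    q.D 1 0 (d.u0 z + Real.log (prS q.e₁ (qq z)), √(qq z)))) .RSf := by
  refine ⟨fun _ => 1 / 2, fun _ => 1, fun _ => rfl, fun _ => rfl,
    ((evRC hn).and (EvC.litSm n)).mono ?_⟩
  rintro q ⟨hc, ls⟩
  refine ⟨by norm_num, zero_le_one, fun d h z gf hz => ?_⟩
  have h1 := sd_RSf hz (ls d h).cp
  rw [← rr2 gf] at h1
  have hp := prR_pos q.e₁
  have h2 : 0 < rr z := by
    rcases (rr_nn z).lt_or_eq with h0 | h0
    · exact h0
    · rw [← h0] at h1
      nlinarith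
  have h3 := nt_Gf (q := q) (d := d) h2
  have h4 := gf.gr.nt0
  have h5 := s_le hc
  have e1 : q.σ / (2 * q.R) = 1 / 2 * (q.σ / q.R) := by
    have := hc.inf.R0
    field_simp
  have e2 : q.σ / (2 * q.R) * (deriv d.Φ (d.u0 z) +
      q.D 1 0 (d.u0 z + Real.log (prS q.e₁ (qq z)), √(qq z))) =
      1 / 2 * (q.σ / q.R) * nt q d z := by
    rw [e1, h3]
    rfl
  constructor
  · show 1 / 2 * (q.σ / q.R) * nt q d z ≤ q.σ / (2 * q.R) * (deriv d.Φ (d.u0 z) +
      q.D 1 0 (d.u0 z + Real.log (prS q.e₁ (qq z)), √(qq z)))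
    rw [e2]
  · show q.σ / (2 * q.R) * (deriv d.Φ (d.u0 z) +
      q.D 1 0 (d.u0 z + Real.log (prS q.e₁ (qq z)), √(qq z))) ≤ 1 * nt q d z
    rw [e2]
    refine mul_le_mul_of_nonneg_right ?_ h4.le
    linarith [h5.1]

theorem mb_A (hn : 1 ≤ n) {μ : Cst → ℝ} (hμ : NB_R μ) (h0 : ∀ q, 0 < μ q) {k : Zo}
    (hk : k = .A1 ∨ k = .A2 ∨ k = .Af) : MBR (n := n) (H747.A.mA μ) k := by
  refine ⟨fun _ => 1 / 400, fun q => |μ q / q.c₀| + 1, fun _ => rfl, fun q => ?_,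
    ((evRC hn).and (EvC.litSm n)).mono ?_⟩
  · have e : q.b_R.c₀ = q.c₀ := rfl
    simp only [hμ q, e]
  rintro q ⟨hc, ls⟩
  refine ⟨by norm_num, by positivity, fun d h z gf hz => ?_⟩
  have hoff : Off k := by
    unfold Off
    rcases hk with rfl | rfl | rfl <;> decide
  have h1 := sd_off hz hoff (ls d h).cp
  rw [← rr2 gf] at h1
  have hc0 := hc.pos.1
  have hr1 : q.c₀ ≤ rr z := (abs_le_of_sq_le_sq' h1 (rr_nn z)).2
  have h2 : 0 < rr z := by linarith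
  have h3 := nt_Gf (q := q) (d := d) h2
  have h4 := gf.gr.nt0
  have h5 := s_le hc
  have hμ0 := h0 q
  have er : H747.A.rr d z = rr z := by
    show √(d.r2 z) = √(qq z)
    rw [gf.fl.r2]
  have eG : H747.A.GG q d z = Gf q d z := by
    show q.D 1 0 (d.u q z + Real.log (prS q.e₁ (H747.A.rr d z ^ 2)), H747.A.rr d z) = _
    rw [er, rr_sq, gf.fl.u]
    rfl
  have eN : H747.A.NG q d z = nt q d z := by
    show d.N q z + H747.A.GG q d z = _
    rw [eG, h3, gf.Nf]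
  have hG := Gf_nn h h2
  have hG1 : Gf q d z ≤ nt q d z := by
    have hN0 : 0 < deriv d.Φ (d.u0 z) := h.N_pos hc.gc.M1 _
    rw [h3]
    linarith
  have hR := hc.inf.R0
  have e1 : q.σ / (400 * q.R) = 1 / 400 * (q.σ / q.R) := by field_simp
  constructor
  · show 1 / 400 * (q.σ / q.R) * nt q d z ≤ μ q * (H747.A.GG q d z / H747.A.rr d z) +
      q.σ / (400 * q.R) * H747.A.NG q d z
    rw [eG, er, eN, e1]
    have : 0 ≤ μ q * (Gf q d z / rr z) := by positivity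
    linarith
  · show μ q * (H747.A.GG q d z / H747.A.rr d z) +
      q.σ / (400 * q.R) * H747.A.NG q d z ≤ (|μ q / q.c₀| + 1) * nt q d z
    rw [eG, er, eN, e1, abs_of_pos (by positivity)]
    have k1 : Gf q d z / rr z ≤ nt q d z / q.c₀ := div_le_div₀ h4.le hG1 hc0 hr1
    have k2 : μ q * (Gf q d z / rr z) ≤ μ q / q.c₀ * nt q d z := by
      refine (mul_le_mul_of_nonneg_left k1 hμ0.le).trans (le_of_eq ?_)
      ring
    have k3 : 1 / 400 * (q.σ / q.R) * nt q d z ≤ 1 * nt q d z :=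
      mul_le_mul_of_nonneg_right (by linarith [h5.2]) h4.le
    linarith

/-! ## Region 0 -/

theorem rr_z0 (hc : RC n q) (gf : GF q d z) (hP : (d.cp q).Ok) (hz : d.ch q .z0 z ≠ 0) :
    rr z ≤ prR q.e₁ + 1 := by
  have h1 := sd_r hz (by unfold Near; decide) hP
  rw [← rr2 gf] at h1
  have hc0 := hc.pos.1
  have hc1 := hc.pos.2
  have h2 : rr z ≤ 2 * q.c₀ := (abs_le_of_sq_le_sq' (by nlinarith : rr z ^ 2 ≤ (2 * q.c₀) ^ 2)
    (by linarith)).2
  have hp := prR_pos q.e₁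
  linarith

theorem payer_z0 (hn : 1 ≤ n) {M : Fam n} {kz : Cst → Pk n → VV n → ℝ} {c cs : Cst → ℝ}
    (hc : NB_R c) (hcs : NB_R cs) (c0 : ∀ q, 0 < c q) (cs0 : ∀ q, 0 < cs q ∧ cs q ≤ 1)
    (hM : ∀ q d, M q d .z0 = H165.Tab.M0 (nu kz q d) (c q) (cs q * (q.σ / q.R))) :
    PayerR M .z0 := by
  refine ⟨fun q => c q * cs q / 8, fun q => by simp only [hc q, hcs q],
    ((evRC hn).and (EvC.litSm n)).mono ?_⟩
  rintro q ⟨rc, ls⟩
  have hc0 := c0 q
  obtain ⟨hs0, hs1⟩ := cs0 q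
  refine ⟨by positivity, fun d h z gf hz => ?_⟩
  have hr := rr_z0 rc gf (ls d h).cp hz
  have h1 := nt_le rc h gf hr
  have h2 := gf.gr.nt0
  have h3 := s_le rc
  have hE : 0 < d.E q z := Real.exp_pos _
  have hN : 0 < d.N q z := by linarith
  have hs : 0 < q.σ / q.R := h3.1
  have hsN : 0 ≤ cs q * (q.σ / q.R) * d.N q z := by positivity
  have a1 : c q * cs q / 8 * (q.σ / q.R) * nt q d z ≤
      c q * (d.E q z + cs q * (q.σ / q.R) * d.N q z) := by
    have b1 : c q * cs q / 8 * (q.σ / q.R) * nt q d z ≤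
        c q * cs q / 8 * (q.σ / q.R) * (2 * d.N q z) := mul_le_mul_of_nonneg_left h1 (by positivity)
    have b2 : 0 ≤ c q * (cs q * (q.σ / q.R) * d.N q z) := by positivity
    have b3 : 0 ≤ c q * d.E q z := by positivity
    nlinarith
  have a2 : c q * cs q / 8 * (q.σ / q.R) * nt q d z ^ 3 ≤
      c q * ((d.E q z + cs q * (q.σ / q.R) * d.N q z) * d.N q z ^ 2) := by
    have b0 : nt q d z ^ 3 ≤ (2 * d.N q z) ^ 3 := by gcongr
    have b1 : c q * cs q / 8 * (q.σ / q.R) * nt q d z ^ 3 ≤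
        c q * cs q / 8 * (q.σ / q.R) * (2 * d.N q z) ^ 3 :=
      mul_le_mul_of_nonneg_left b0 (by positivity)
    have b3 : 0 ≤ c q * (d.E q z * d.N q z ^ 2) := by positivity
    calc c q * cs q / 8 * (q.σ / q.R) * nt q d z ^ 3 ≤
        c q * cs q / 8 * (q.σ / q.R) * (2 * d.N q z) ^ 3 := b1
      _ = c q * (cs q * (q.σ / q.R) * d.N q z * d.N q z ^ 2) := by ring
      _ ≤ _ := by nlinarith
  rw [hM q d]
  exact ⟨hc0.le, a1, a1, mul_nonneg hc0.le hE.le, a2, a2, le_rfl, le_rfl⟩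

theorem cost_z0 (hn : 1 ≤ n) {co : Fam n} {kz : Cst → Pk n → VV n → ℝ} {C cs e : Cst → ℝ}
    (hC : NB_R C) (_hcs : NB_R cs) (he : NB_R e) (C0 : ∀ q, 0 < C q)
    (cs0 : ∀ q, 0 < cs q ∧ cs q ≤ 1) (e0 : ∀ q, 0 < e q)
    (hM : ∀ q d, co q d .z0 = H165.Tab.c0 (nu kz q d) (C q) (cs q * (q.σ / q.R))
      (sq1 (d.ch q .z0)) (e q)) : CostR co .z0 := by
  refine ⟨fun q => C q * (e q * (2 * (n * CZ q))) +
    C q * ((1 / e q * (|q.L| + 3) + e q) * (2 * (n * CZ q))), fun q => ?_,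
    ((evRC hn).and (EvC.litSm n)).mono ?_⟩
  · have e1 : CZ q.b_R = CZ q := rfl
    have e2 : q.b_R.L = q.L := rfl
    simp only [he q, hC q, e1, e2]
  rintro q ⟨rc, ls⟩
  have hC0 := C0 q
  have he0 := e0 q
  obtain ⟨hs0, hs1⟩ := cs0 q
  have hZ : 0 ≤ n * CZ q := mul_nonneg (Nat.cast_nonneg n) (CZ_nn q)
  refine ⟨by positivity, fun d h z gf hz => ?_⟩
  have h2 := gf.gr.nt0
  have h3 := s_le rc
  have hE : 0 < d.E q z := Real.exp_pos _
  have hs : 0 < q.σ / q.R := h3.1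
  have hN1 := gf.N1
  have hnm := gf.ar.nm
  have hn1 := rc.nm1
  have hNe := gf.ar.N
  have hone : (1 : ℝ) ≤ Real.exp (2 * q.R) := Real.one_le_exp (by linarith [rc.R])
  have hN : 1 ≤ d.N q z := by linarith
  have hnt : 1 ≤ nt q d z := by linarith
  have hEN : d.E q z ≤ d.N q z := by nlinarith
  have sx := sq_x rc h (ls d h) gf (Or.inr (Or.inr (Or.inl rfl))) hz
  have sy := sq_y rc h (ls d h) gf (Or.inr (Or.inr (Or.inl rfl))) hz
  have sz : sq1 (d.ch q .z0) z ≤ 2 * (n * CZ q) := by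
    unfold sq1
    rw [Finset.sum_add_distrib]
    linarith
  have sz0 : 0 ≤ sq1 (d.ch q .z0) z := H867.Z.sq1_nn _ _
  have hK : d.Kf q z ≤ (|q.L| + 1 / 20) * d.N q z := by
    have k1 : deriv (deriv d.Φ) (d.u q z) ≤ (q.L + 1 / 20) * deriv d.Φ (d.u q z) := h.top.k2 _
    have k2 : q.L ≤ |q.L| := le_abs_self _
    refine k1.trans (mul_le_mul_of_nonneg_right (by linarith) ?_)
    exact (by linarith : (0 : ℝ) ≤ d.N q z)
  set x : ℝ := d.E q z + cs q * (q.σ / q.R) * d.N q z with hx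
  have hx0 : 0 < x := by positivity
  have hx1 : x ≤ 2 * d.N q z := by
    have : cs q * (q.σ / q.R) * d.N q z ≤ 1 * d.N q z := by
      refine mul_le_mul_of_nonneg_right ?_ (by linarith)
      exact mul_le_one₀ hs1 hs.le h3.2
    linarith
  have hr0 : 0 ≤ x / (1 + x) := by positivity
  have hr1 : x / (1 + x) ≤ 1 := (div_le_one (by linarith)).2 (by linarith)
  have hL0 : 0 ≤ |q.L| := abs_nonneg _
  have t1 : 0 ≤ C q * (e q * (2 * (n * CZ q))) := by positivity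
  have t2 : 0 ≤ C q * ((1 / e q * (|q.L| + 3) + e q) * (2 * (n * CZ q))) := by positivity
  have a1 : C q * (e q * (x / (1 + x) * sq1 (d.ch q .z0) z)) ≤
      C q * (e q * (2 * (n * CZ q))) + C q * ((1 / e q * (|q.L| + 3) + e q) * (2 * (n * CZ q))) := by
    have b1 : x / (1 + x) * sq1 (d.ch q .z0) z ≤ 2 * (n * CZ q) :=
      (mul_le_of_le_one_left sz0 hr1).trans sz
    have b2 : C q * (e q * (x / (1 + x) * sq1 (d.ch q .z0) z)) ≤ C q * (e q * (2 * (n * CZ q))) := by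
      gcongr
    linarith
  have hNn : d.N q z ≤ nt q d z ^ 2 := by nlinarith
  have hN2 : d.N q z ^ 2 ≤ nt q d z ^ 2 := by
    have : 0 ≤ d.N q z := by linarith
    gcongr
  have a2 : C q * ((1 / e q * (d.Kf q z + x) + e q * d.N q z ^ 2 * (x / (1 + x))) *
      sq1 (d.ch q .z0) z) ≤ (C q * (e q * (2 * (n * CZ q))) +
      C q * ((1 / e q * (|q.L| + 3) + e q) * (2 * (n * CZ q)))) * nt q d z ^ 2 := by
    have b1 : d.Kf q z + x ≤ (|q.L| + 3) * nt q d z ^ 2 := by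
      have c1 : d.Kf q z + x ≤ (|q.L| + 3) * d.N q z := by nlinarith
      exact c1.trans (mul_le_mul_of_nonneg_left hNn (by linarith))
    have b2 : e q * d.N q z ^ 2 * (x / (1 + x)) ≤ e q * nt q d z ^ 2 := by
      calc e q * d.N q z ^ 2 * (x / (1 + x)) ≤ e q * d.N q z ^ 2 :=
            mul_le_of_le_one_right (by positivity) hr1
        _ ≤ _ := mul_le_mul_of_nonneg_left hN2 he0.le
    have b3 : 1 / e q * (d.Kf q z + x) ≤ 1 / e q * ((|q.L| + 3) * nt q d z ^ 2) :=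
      mul_le_mul_of_nonneg_left b1 (by positivity)
    have b4 : 1 / e q * (d.Kf q z + x) + e q * d.N q z ^ 2 * (x / (1 + x)) ≤
        (1 / e q * (|q.L| + 3) + e q) * nt q d z ^ 2 := by
      calc _ ≤ 1 / e q * ((|q.L| + 3) * nt q d z ^ 2) + e q * nt q d z ^ 2 := add_le_add b3 b2
        _ = _ := by ring
    have b5 : (1 / e q * (d.Kf q z + x) + e q * d.N q z ^ 2 * (x / (1 + x))) *
        sq1 (d.ch q .z0) z ≤ (1 / e q * (|q.L| + 3) + e q) * nt q d z ^ 2 * (2 * (n * CZ q)) :=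
      mul_le_mul b4 sz sz0 (by positivity)
    have b6 := mul_le_mul_of_nonneg_left b5 hC0.le
    have b7 : 0 ≤ C q * (e q * (2 * (n * CZ q))) * nt q d z ^ 2 := by positivity
    calc _ ≤ C q * ((1 / e q * (|q.L| + 3) + e q) * nt q d z ^ 2 * (2 * (n * CZ q))) := b6
      _ ≤ _ := by linarith
  rw [hM q d]
  exact ⟨le_rfl, a1, a1, le_rfl, a2, a2, le_rfl, le_rfl⟩

/-! ## The letters of `Lett` -/

/-- The letters of the leaves `RSn` (helper312), `RSf` (helper53). -/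
structure LRS (L : Lc n) : Prop where
  Mn : ∀ q d, L.FM .RSn q d = MA d.sx d.sy (d.W q) (fun z => q.σ / q.R * d.NG q z) (1 / 200)
  Cn : ∀ q d, L.FC .RSn q d = coA d.sx d.sy (d.W q) (fun z => q.σ / q.R * d.NG q z)
    (d.ch q .RSn) (1 / 200)
  Mf : ∀ q d, L.FM .RSf q d = MA d.sx d.sy (d.W q) (fun z => q.σ / (2 * q.R) *
    (deriv d.Φ (d.u0 z) + q.D 1 0 (d.u0 z + Real.log (prS q.e₁ (qq z)), √(qq z)))) (1 / 200)
  Cf : ∀ q d, L.FC .RSf q d = coA d.sx d.sy (d.W q) (fun z => q.σ / (2 * q.R) *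
    (deriv d.Φ (d.u0 z) + q.D 1 0 (d.u0 z + Real.log (prS q.e₁ (qq z)), √(qq z))))
    (d.ch q .RSf) (1 / 200)

/-- The margins. -/
theorem payer_all (hn : 1 ≤ n) {L : Lc n} (hL : L.Ok) (lr : LRS L) {k : Zo} (hk : Al k) :
    PayerR (Mz L) k := by
  rcases hk with rfl | rfl | rfl | rfl | rfl | rfl
  · exact payer_MA (κ₀ := fun _ => 1 / 200) (mb_RSn hn) (fun _ => by norm_num) lr.Mn
  · exact payer_MA (κ₀ := fun _ => 1 / 200) (mb_RSf hn) (fun _ => by norm_num) lr.Mf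
  · exact payer_z0 (kz := L.kz) hn (nbR hL.c0.2) (nbR hL.cs.2) hL.c0.1 hL.cs.1 fun _ _ => rfl
  · exact payer_MA (mb_A hn (nbR hL.μA.2) hL.μA.1 (Or.inl rfl))
      (fun q => by linarith [(hL.kA.1 q).2]) fun _ _ => rfl
  · exact payer_MA (mb_A hn (nbR hL.μA.2) hL.μA.1 (Or.inr (Or.inl rfl)))
      (fun q => by linarith [(hL.kA.1 q).2]) fun _ _ => rfl
  · exact payer_MA (mb_A hn (nbR hL.μA.2) hL.μA.1 (Or.inr (Or.inr rfl)))
      (fun q => by linarith [(hL.kA.1 q).2]) fun _ _ => rfl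

/-- The costs. -/
theorem cost_all (hn : 1 ≤ n) {L : Lc n} (hL : L.Ok) (lr : LRS L) {e : Cst → ℝ} (he : SmE e)
    {k : Zo} (hk : Al k) : CostR (coz L e) k := by
  rcases hk with rfl | rfl | rfl | rfl | rfl | rfl
  · exact cost_coA hn (e := fun _ => 1 / 200) (mb_RSn hn) (by unfold Al; decide) (fun _ => rfl)
      (fun _ => by norm_num) lr.Cn
  · exact cost_coA hn (e := fun _ => 1 / 200) (mb_RSf hn) (by unfold Al; decide) (fun _ => rfl)
      (fun _ => by norm_num) lr.Cf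
  · exact cost_z0 (kz := L.kz) hn (nbR hL.C0.2) (nbR hL.cs.2) (nbR he.1) hL.C0.1 hL.cs.1 he.2
      fun _ _ => rfl
  · exact cost_coA hn (mb_A hn (nbR hL.μA.2) hL.μA.1 (Or.inl rfl)) (by unfold Al; decide)
      (nbR he.1) he.2 fun _ _ => rfl
  · exact cost_coA hn (mb_A hn (nbR hL.μA.2) hL.μA.1 (Or.inr (Or.inl rfl)))
      (by unfold Al; decide) (nbR he.1) he.2 fun _ _ => rfl
  · exact cost_coA hn (mb_A hn (nbR hL.μA.2) hL.μA.1 (Or.inr (Or.inr rfl)))
      (by unfold Al; decide) (nbR he.1) he.2 fun _ _ => rfl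

/-- **The payments of the layers of the leaves `RS`**, at all points where both cut-offs are not
zero. -/
theorem payW_all (hn : 1 ≤ n) {L : Lc n} (hL : L.Ok) (lr : LRS L) {e : Cst → ℝ} (he : SmE e)
    {k j : Zo} (hk : Al k) (hj : Al j) (hRS : RS k ∨ RS j) : RowPayW (Mz L) (coz L e) k j :=
  pay_of hn (payer_all hn hL lr hj) (cost_all hn hL lr he hk) hRS

/-- In helper558's form. -/
theorem payEW_all (hn : 1 ≤ n) {L : Lc n} (hL : L.Ok) (lr : LRS L) {k j : Zo} (hk : Al k)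
    (hj : Al j) (hRS : RS k ∨ RS j) : PayEW L k j :=
  PayEW.all fun _ he => payW_all hn hL lr he hk hj hRS

/-- The payment of the pair `k`, `j` where the cut `inf` is off. -/
def RowPayR (M co : Fam n) (k j : Zo) : Prop := EvC fun q => ∀ d : Pk n, PkOk q d →
  ∀ z, d.tinf q z ≤ 0 → d.ch q k z ≠ 0 → d.ch q j z ≠ 0 → ∀ a b : VV n → ℝ,
    34 * den d q (co q d k) a b z ≤ den d q (M q d j) a b z

theorem payR_all (hn : 1 ≤ n) {L : Lc n} (hL : L.Ok) (lr : LRS L) {e : Cst → ℝ} (he : SmE e)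
    {k j : Zo} (hk : Al k) (hj : Al j) (hRS : RS k ∨ RS j) : RowPayR (Mz L) (coz L e) k j :=
  (payW_all hn hL lr he hk hj hRS).mono fun _ h d ok z _ hk hj a b => h d ok z hk hj a b

end Vale.Agent.P088.R2.H551.RS
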