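import Vale.Agent.P088.R2.H551.RS.Cut
import Vale.Agent.P088.R2.H558.G.TopL

/-!
# P088, stage 3, payments of the layers of the leaves `RSn`, `RSf`

The pairs of the leaves `RSn`, `RSf`, `z0`, `A1`, `A2`, `Af` with at least one leaf `RS`. There `n = Φ' + Ψ_f ≥ e^(2R)`, the
margins are `ζ ≥ c (σ/R) n`, `w ≥ c (σ/R) n³` and the costs are `ζ ≤ C`, `w ≤ C n²`.
-/

open Set Filter
open scoped ContDiff Topology Matrix

noncomputable section

namespace Vale.Agent.P088.R2.H551.RS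

open Vale.Agent.P088.LR Vale.Agent.P088.HY Vale.Agent.P088.R2.H31.EP
open Vale.Agent.P088.R2.H475
open Vale.Agent.P088.R2.H464.Cu (mid dif rq)
open Vale.Agent.P088.R2.H404.INF (InfC evInf lvG NearOk l₀_nonneg)
open Vale.Agent.P088.R2.H867.EP (Zo Cut cuts path sd RS Inf Near Off)
open Vale.Agent.P088.R2.H867.Z (sq1)
open Vale.Agent.P088.R2.H710.GP (en en_nn en_sq rr rr_nn rr_sq NG_pos)
open Vale.Agent.P088.R2.H455.E
open Vale.Agent.P088.R2.H558.G (RowPayW PayEW)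
open Vale.Agent.P088.R2.H551.E
open Vale.Agent.P088.R2.H747.SW (MA coA rh)

variable {n : ℕ} {q : Cst} {d : Pk n} {z : VV n}

theorem nbR {α : Type*} {f : Cst → α} (h : NB_c' f) : NB_R f := fun q => by
  have h1 := h q.b_R
  have h2 := h q
  have e : q.b_R.b_c' = q.b_c' := rfl
  rw [e] at h1
  exact h1.symm.trans h2

/-! ## The abstract interface -/

/-- A payer. -/
structure Py (M : Q8 (VV n)) (a b : ℝ) (z : VV n) : Prop where
  κ : 0 ≤ M.κ z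
  ζ₁ : a ≤ M.ζ₁ z
  ζ₂ : a ≤ M.ζ₂ z
  ζy : 0 ≤ M.ζy z
  w₁ : b ≤ M.w₁ z
  w₂ : b ≤ M.w₂ z
  wb : 0 ≤ M.wb z
  wc : 0 ≤ M.wc z

/-- A cost. -/
structure Co (p : Q8 (VV n)) (a b : ℝ) (z : VV n) : Prop where
  κ : p.κ z ≤ 0
  ζ₁ : p.ζ₁ z ≤ a
  ζ₂ : p.ζ₂ z ≤ a
  ζy : p.ζy z ≤ 0
  w₁ : p.w₁ z ≤ b
  w₂ : p.w₂ z ≤ b
  wb : p.wb z ≤ 0
  wc : p.wc z ≤ 0

theorem pay_den {M p : Q8 (VV n)} {a b a' b' : ℝ} (hM : Py M a b z) (hp : Co p a' b' z)
    (h1 : 34 * a' ≤ a) (h2 : 34 * b' ≤ b) (f g : VV n → ℝ) :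
    34 * den d q p f g z ≤ den d q M f g z := by
  refine H509.PT.dens_mul_le ?_ ?_ ?_ ?_ ?_ ?_ ?_ ?_
  · linarith [hM.κ, hp.κ]
  · linarith [hM.ζ₁, hp.ζ₁]
  · linarith [hM.ζ₂, hp.ζ₂]
  · linarith [hM.ζy, hp.ζy]
  · linarith [hM.w₁, hp.w₁]
  · linarith [hM.w₂, hp.w₂]
  · linarith [hM.wb, hp.wb]
  · linarith [hM.wc, hp.wc]

/-- The margin of the leaf `k` where a leaf `RS` is alive. -/
def PayerR (M : Fam n) (k : Zo) : Prop := ∃ c : Cst → ℝ, NB_R c ∧ EvC fun q => 0 < c q ∧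
  ∀ d : Pk n, PkOk q d → ∀ z, GF q d z → d.ch q k z ≠ 0 →
    Py (M q d k) (c q * (q.σ / q.R) * nt q d z) (c q * (q.σ / q.R) * nt q d z ^ 3) z

/-- The cost of the leaf `k` where a leaf `RS` is alive. -/
def CostR (co : Fam n) (k : Zo) : Prop := ∃ C : Cst → ℝ, NB_R C ∧ EvC fun q => 0 ≤ C q ∧
  ∀ d : Pk n, PkOk q d → ∀ z, GF q d z → d.ch q k z ≠ 0 →
    Co (co q d k) (C q) (C q * nt q d z ^ 2) z

/-- `C ≤ c (σ / R) e^(2R)`. -/
theorem ev_exp {c C : Cst → ℝ} (hc : NB_R c) (hC : NB_R C) :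
    EvC fun q => 0 < c q → 34 * C q ≤ c q * (q.σ / q.R) * Real.exp (2 * q.R) := by
  have h : EvC fun q => 0 < c q.b_R * q.σ →
      34 * C q.b_R * q.R ≤ c q.b_R * q.σ * Real.exp (2 * q.R) :=
    EvC.at_R (fun q t => 0 < c q * q.σ → 34 * C q * t ≤ c q * q.σ * Real.exp (2 * t)) fun q => by
      by_cases hp : 0 < c q * q.σ
      · have h1 : Tendsto (fun t : ℝ => c q * q.σ * t) atTop atTop :=
          Tendsto.const_mul_atTop hp tendsto_id
        filter_upwards [h1.eventually_ge_atTop (34 * C q), eventually_ge_atTop (0 : ℝ)] with t h2 h3 _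
        have h4 : t * t ≤ Real.exp (2 * t) := by
          have h5 := Real.add_one_le_exp t
          have h6 : Real.exp (2 * t) = Real.exp t * Real.exp t := by
            rw [← Real.exp_add]; ring_nf
          rw [h6]
          exact mul_le_mul (by linarith) (by linarith) h3 (Real.exp_pos _).le
        calc 34 * C q * t ≤ c q * q.σ * t * t := mul_le_mul_of_nonneg_right h2 h3
          _ = c q * q.σ * (t * t) := by ring
          _ ≤ _ := mul_le_mul_of_nonneg_left h4 hp.le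
      · exact Eventually.of_forall fun _ h1 => absurd h1 hp
  have hR : EvC fun q => 1 ≤ q.R := EvC.at_R (fun _ t => 1 ≤ t) fun _ => ev_top 1 fun t ht => ht
  refine ((h.and hR).and evInf).mono ?_
  rintro q ⟨⟨h1, h2⟩, h3⟩ h4
  rw [hc q, hC q] at h1
  have h5 := h1 (mul_pos h4 h3.σ0)
  have h6 : 0 < q.R := by linarith
  have e : c q * (q.σ / q.R) * Real.exp (2 * q.R) = c q * q.σ * Real.exp (2 * q.R) / q.R := by
    field_simp
  rw [e, le_div_iff₀ h6]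
  exact h5

/-- **The pairs with a leaf `RS`.** -/
theorem pay_of (hn : 1 ≤ n) {M co : Fam n} {k j : Zo} (hM : PayerR M j) (hco : CostR co k)
    (hRS : RS k ∨ RS j) : RowPayW M co k j := by
  obtain ⟨c, hc, hM⟩ := hM
  obtain ⟨C, hC, hco⟩ := hco
  refine ((hM.and hco).and ((evRC hn).and (ev_exp hc hC))).mono ?_
  rintro q ⟨⟨⟨hc0, hM⟩, hC0, hco⟩, rc, hex⟩ d h z hk hj a b
  have gf : GF q d z := by
    rcases hRS with h1 | h1
    · exact gf_of rc h h1 hk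
    · exact gf_of rc h h1 hj
  have hn1 : Real.exp (2 * q.R) ≤ nt q d z := gf.ar.N.trans gf.N1
  have hs : 0 ≤ c q * (q.σ / q.R) := by
    have := rc.inf.σ0
    have := rc.inf.R0
    positivity
  have h1 : 34 * C q ≤ c q * (q.σ / q.R) * nt q d z :=
    (hex hc0).trans (mul_le_mul_of_nonneg_left hn1 hs)
  refine pay_den (hM d h z gf hj) (hco d h z gf hk) h1 ?_ a b
  calc 34 * (C q * nt q d z ^ 2) = 34 * C q * nt q d z ^ 2 := by ring
    _ ≤ c q * (q.σ / q.R) * nt q d z * nt q d z ^ 2 :=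
        mul_le_mul_of_nonneg_right h1 (sq_nonneg _)
    _ = _ := by ring

/-! ## The letters `MA`, `coA` -/

/-- A lower bound of the margin. -/
theorem py_MA (gf : GF q d z) {m : VV n → ℝ} {κ₀ c : ℝ} (hκ : κ₀ ≤ 1) (hc : 0 ≤ c)
    (hm : c * nt q d z ≤ m z) :
    Py (MA d.sx d.sy (d.W q) m κ₀) (c / 192 * nt q d z) (c / 192 * nt q d z ^ 3) z := by
  have h0 := gf.gr.nt0
  have hm0 : 0 ≤ m z := (by positivity : 0 ≤ c * nt q d z).trans hm
  have key : ∀ F, nt q d z ^ 2 / 64 ≤ F → c / 192 * nt q d z ^ 3 ≤ 1 / 3 * (m z * F) := by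
    intro F hF
    have h1 : c * nt q d z * (nt q d z ^ 2 / 64) ≤ m z * F :=
      mul_le_mul hm hF (by positivity) hm0
    calc c / 192 * nt q d z ^ 3 = 1 / 3 * (c * nt q d z * (nt q d z ^ 2 / 64)) := by ring
      _ ≤ _ := by linarith
  have h2 : c / 192 * nt q d z ≤ m z := by
    have : 0 ≤ c * nt q d z := by positivity
    linarith
  exact ⟨by show 0 ≤ 1 - κ₀; linarith, h2, h2, le_rfl, key _ gf.Fx1, key _ gf.Fy1, le_rfl, le_rfl⟩

/-- An upper bound of the cost. -/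
theorem co_coA (hc : RC n q) (h : PkOk q d) (ls : LitSm q d) (gf : GF q d z)
    {k : Zo} (hk : Al k) (hz : d.ch q k z ≠ 0) {m : VV n → ℝ} {η C : ℝ}
    (hη : 0 < η) (hm0 : 0 ≤ m z) (hm : m z ≤ C * nt q d z) :
    Co (coA d.sx d.sy (d.W q) m (d.ch q k) η)
      (32 * η * (n * CZ q) + (3 / η * (C * (n * CZ q)) + 144 * η * (n * CZ q * 4)))
      ((32 * η * (n * CZ q) + (3 / η * (C * (n * CZ q)) + 144 * η * (n * CZ q * 4))) *
        nt q d z ^ 2) z := by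
  have h0 := gf.gr.nt0
  have hC0 : 0 ≤ C := by
    by_contra hcon
    have : C * nt q d z < 0 := mul_neg_of_neg_of_pos (not_le.1 hcon) h0
    linarith
  have hZ : 0 ≤ n * CZ q := mul_nonneg (Nat.cast_nonneg n) (CZ_nn q)
  have hn1 : 1 ≤ nt q d z := by
    have h1 := gf.ar.N.trans gf.N1
    have h2 : (1 : ℝ) ≤ Real.exp (2 * q.R) := Real.one_le_exp (by linarith [hc.R])
    linarith
  have hr0 : 0 ≤ rh m z := div_nonneg hm0 (by linarith)
  have hr1 : rh m z ≤ 1 := (div_le_one (by linarith)).2 (by linarith)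
  have sx := sq_x hc h ls gf hk hz
  have sy := sq_y hc h ls gf hk hz
  have sx0 : 0 ≤ ∑ i, dx i (d.ch q k) z ^ 2 := Finset.sum_nonneg fun _ _ => sq_nonneg _
  have sy0 : 0 ≤ ∑ i, dy i (d.ch q k) z ^ 2 := Finset.sum_nonneg fun _ _ => sq_nonneg _
  have hn2 : nt q d z ≤ nt q d z ^ 2 := by nlinarith
  have hn3 : 1 ≤ nt q d z ^ 2 := by nlinarith
  set Z : ℝ := n * CZ q with hZd
  have t1 : 0 ≤ 3 / η * (C * Z) + 144 * η * (Z * 4) := by positivity
  have t2 : 0 ≤ 32 * η * Z := by positivity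
  have zk : ∀ S : ℝ, 0 ≤ S → S ≤ Z → 32 * η * (rh m z * S) ≤
      32 * η * Z + (3 / η * (C * Z) + 144 * η * (Z * 4)) := by
    intro S hS0 hS
    have : rh m z * S ≤ Z := (mul_le_of_le_one_left hS0 hr1).trans hS
    have h3 : 32 * η * (rh m z * S) ≤ 32 * η * Z := mul_le_mul_of_nonneg_left this (by positivity)
    linarith
  have wk : ∀ S F : ℝ, 0 ≤ S → S ≤ Z → 0 ≤ F → F ≤ 4 * nt q d z ^ 2 →
      3 / η * (m z * S) + 144 * η * (rh m z * S * F) ≤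
        (32 * η * Z + (3 / η * (C * Z) + 144 * η * (Z * 4))) * nt q d z ^ 2 := by
    intro S F hS0 hS hF0 hF
    have a1 : m z * S ≤ C * nt q d z ^ 2 * Z := by
      refine mul_le_mul (hm.trans ?_) hS hS0 (by positivity)
      exact mul_le_mul_of_nonneg_left hn2 hC0
    have a2 : rh m z * S * F ≤ Z * (4 * nt q d z ^ 2) := by
      refine mul_le_mul ((mul_le_of_le_one_left hS0 hr1).trans hS) hF hF0 hZ
    have a3 : 3 / η * (m z * S) ≤ 3 / η * (C * nt q d z ^ 2 * Z) :=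
      mul_le_mul_of_nonneg_left a1 (by positivity)
    have a4 : 144 * η * (rh m z * S * F) ≤ 144 * η * (Z * (4 * nt q d z ^ 2)) :=
      mul_le_mul_of_nonneg_left a2 (by positivity)
    have a5 : 0 ≤ 32 * η * Z * nt q d z ^ 2 := by positivity
    nlinarith
  have fx := sx_F (q := q) gf.fl.s₁x
  have fy := sy_F (q := q) gf.fl.s₂y
  have ex : ∑ i, d.sx.D i (d.W q) z ^ 2 = en (Wx q d z) ^ 2 := by
    rw [en_sq]
    simp only [sx_D]
    rfl
  have ey : ∑ i, d.sy.D i (d.W q) z ^ 2 = en (Wy q d z) ^ 2 := by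
    rw [en_sq]
    simp only [sy_D]
    rfl
  have cx : ∑ i, d.sx.D i (d.ch q k) z ^ 2 = ∑ i, dx i (d.ch q k) z ^ 2 := by simp only [sx_D]
  have cy : ∑ i, d.sy.D i (d.ch q k) z ^ 2 = ∑ i, dy i (d.ch q k) z ^ 2 := by simp only [sy_D]
  have gx : d.sx.Γ (d.ch q k) (d.ch q k) z = ∑ i, dx i (d.ch q k) z ^ 2 := sx_Γ gf.fl.s₁x _
  have gy : d.sy.Γ (d.ch q k) (d.ch q k) z = ∑ i, dy i (d.ch q k) z ^ 2 := sy_Γ gf.fl.s₂y _
  refine ⟨le_rfl, ?_, ?_, le_rfl, ?_, ?_, le_rfl, le_rfl⟩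
  · show 32 * η * (rh m z * ∑ i, d.sx.D i (d.ch q k) z ^ 2) ≤ _
    rw [cx]
    exact zk _ sx0 sx
  · show 32 * η * (rh m z * ∑ i, d.sy.D i (d.ch q k) z ^ 2) ≤ _
    rw [cy]
    exact zk _ sy0 sy
  · show 3 / η * (m z * d.sx.Γ (d.ch q k) (d.ch q k) z) + 144 * η *
      (rh m z * (∑ i, d.sx.D i (d.ch q k) z ^ 2) * ∑ i, d.sx.D i (d.W q) z ^ 2) ≤ _
    rw [gx, cx, ex, ← fx]
    exact wk _ _ sx0 sx (by rw [fx]; positivity) gf.Fx2
  · show 3 / η * (m z * d.sy.Γ (d.ch q k) (d.ch q k) z) + 144 * η *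
      (rh m z * (∑ i, d.sy.D i (d.ch q k) z ^ 2) * ∑ i, d.sy.D i (d.W q) z ^ 2) ≤ _
    rw [gy, cy, ey, ← fy]
    exact wk _ _ sy0 sy (by rw [fy]; positivity) gf.Fy2

/-- The bounds of the function `m`. -/
structure MB (q : Cst) (d : Pk n) (m : VV n → ℝ) (c C : ℝ) (z : VV n) : Prop where
  lo : c * (q.σ / q.R) * nt q d z ≤ m z
  up : m z ≤ C * nt q d z

/-- The function `m` of the leaf `k`. -/
def MBR (m : Cst → Pk n → VV n → ℝ) (k : Zo) : Prop := ∃ c C : Cst → ℝ, NB_R c ∧ NB_R C ∧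
  EvC fun q => 0 < c q ∧ 0 ≤ C q ∧ ∀ d : Pk n, PkOk q d → ∀ z, GF q d z → d.ch q k z ≠ 0 →
    MB q d (m q d) (c q) (C q) z

theorem payer_MA {M : Fam n} {k : Zo} {m : Cst → Pk n → VV n → ℝ} {κ₀ : Cst → ℝ}
    (hm : MBR m k) (hκ : ∀ q, κ₀ q ≤ 1)
    (hM : ∀ q d, M q d k = MA d.sx d.sy (d.W q) (m q d) (κ₀ q)) : PayerR M k := by
  obtain ⟨c, C, hc, hC, hm⟩ := hm
  refine ⟨fun q => c q / 192, fun q => by simp only [hc q], (hm.and evInf).mono ?_⟩
  rintro q ⟨⟨c0, C0, hm⟩, hi⟩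
  refine ⟨by positivity, fun d h z gf hz => ?_⟩
  have h1 := hm d h z gf hz
  have hs : 0 ≤ c q * (q.σ / q.R) := by
    have := hi.σ0
    have := hi.R0
    positivity
  have h2 := py_MA gf (hκ q) hs h1.lo
  rw [hM q d]
  have e : c q / 192 * (q.σ / q.R) = c q * (q.σ / q.R) / 192 := by ring
  rw [e]
  exact h2

theorem cost_coA (hn : 1 ≤ n) {co : Fam n} {k : Zo} {m : Cst → Pk n → VV n → ℝ} {e : Cst → ℝ}
    (hm : MBR m k) (hk : Al k) (he : NB_R e) (he0 : ∀ q, 0 < e q)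
    (hM : ∀ q d, co q d k = coA d.sx d.sy (d.W q) (m q d) (d.ch q k) (e q)) : CostR co k := by
  obtain ⟨c, C, hc, hC, hm⟩ := hm
  refine ⟨fun q => 32 * e q * (n * CZ q) + (3 / e q * (C q * (n * CZ q)) +
    144 * e q * (n * CZ q * 4)), fun q => ?_, ((hm.and (evRC hn)).and
    ((EvC.litSm n).and evInf)).mono ?_⟩
  · have e1 : CZ q.b_R = CZ q := rfl
    simp only [he q, hC q, e1]
  · rintro q ⟨⟨⟨c0, C0, hm⟩, rc⟩, ls, hi⟩
    have hZ : 0 ≤ n * CZ q := mul_nonneg (Nat.cast_nonneg n) (CZ_nn q)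
    have h0 := he0 q
    refine ⟨by positivity, fun d h z gf hz => ?_⟩
    have h1 := hm d h z gf hz
    have hs : 0 ≤ c q * (q.σ / q.R) * nt q d z := by
      have := hi.σ0
      have := hi.R0
      have := gf.gr.nt0
      positivity
    rw [hM q d]
    exact co_coA rc h (ls d h) gf hk hz h0 (hs.trans h1.lo) h1.up

end Vale.Agent.P088.R2.H551.RS
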