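import Vale.Agent.P088.R2.H871.E.Gf
import Vale.Agent.P088.R2.H551.RS.Inst

/-!
# P088, stage 3, EST': payments where `tinf > 0`: the leaves `RSn`, `RSf` in helper871's form
-/

open Set Filter
open scoped ContDiff Topology Matrix

noncomputable section

namespace Vale.Agent.P088.R2.H551.RS

open Vale.Agent.P088.LR Vale.Agent.P088.HY Vale.Agent.P088.R2.H31.EP
open Vale.Agent.P088.R2.H867.EP (Zo Cut cuts path sd RS Inf Near Off zo_cases)
open Vale.Agent.P088.R2.H710.GP (en en_nn en_sq rr rr_nn rr_sq NG_pos sq_gx sq_gy)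
open Vale.Agent.P088.R2.H455.E
open Vale.Agent.P088.R2.H551.E
open Vale.Agent.P088.R2.H747.SW (MA coA rh)
open Vale.Agent.P088.R2.H871.E (PbI CbI PB CB In3 nx ny MA_PB coA_small ev_ZS Θd_zero RowFn)

variable {n : ℕ} {q : Cst} {d : Pk n} {z : VV n}

/-- The rates where a leaf `RS` is alive. -/
theorem nx_gf (hc : RC n q) (h : PkOk q d) (gf : GF q d z) :
    nx q d z = d.N q z ∧ ny q d z = d.N q z := by
  obtain ⟨-, a2, a3, a4, a5⟩ := gf.ar.uf
  have hR := hc.inf.R0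
  unfold nx ny
  rw [Θd_zero h (by linarith), Θd_zero h (by linarith), gf.Nf]
  simp

theorem s_le' (hc : RC n q) : q.σ / q.R ≤ 1 / 64 := by
  have h1 := hc.inf.σ1
  have h3 := hc.R
  rw [div_le_iff₀ (by linarith)]
  linarith

theorem N_one (hc : RC n q) (gf : GF q d z) : 1 ≤ d.N q z := by
  have h1 := gf.ar.N
  have h2 : (1 : ℝ) ≤ Real.exp (2 * q.R) := Real.one_le_exp (by linarith [hc.R])
  linarith

/-- The payer, from the lower bound of `m`. -/
theorem pb_MA (hc : RC n q) (h : PkOk q d) (gf : GF q d z) {m : VV n → ℝ} {κ₀ c : ℝ}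
    (hκ : κ₀ ≤ 1) (hc0 : 0 ≤ c) (hm : 6 * c * (q.σ / q.R) * nt q d z ≤ m z) :
    PB c (q.σ / q.R) (nx q d z) (ny q d z) (d.sx.F (d.W q) z) (d.sy.F (d.W q) z)
      (MA d.sx d.sy (d.W q) m κ₀) z := by
  obtain ⟨e1, e2⟩ := nx_gf hc h gf
  have h0 := N_one hc gf
  have h1 := gf.N1
  have hs := (s_le hc).1
  have hs' := s_le' hc
  have k1 : 6 * c * (q.σ / q.R * d.N q z) ≤ m z := by
    refine le_trans ?_ hm
    have := mul_le_mul_of_nonneg_left h1 (by positivity : 0 ≤ 6 * c * (q.σ / q.R))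
    linarith
  have k2 : 1 / 64 * d.N q z ^ 2 ≤ nt q d z ^ 2 / 64 := by
    have : d.N q z ^ 2 ≤ nt q d z ^ 2 := by gcongr
    linarith
  have k3 : q.σ / q.R ≤ 1 / 64 * d.N q z := by linarith
  rw [e1, e2]
  exact MA_PB (c₂ := 1 / 64) hc0 hs.le (by linarith) (by linarith) (by norm_num) hκ k1 k1
    (k2.trans gf.Fx1) (k2.trans gf.Fy1) k3 k3

/-- The cost, from the upper bound of `m`. -/
theorem cbI_coA (hn : 1 ≤ n) {L : Lc n} (hE : RowFn n) {k : Zo} (hk : RS k)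
    {m : Cst → Pk n → VV n → ℝ} {c C : Cst → ℝ} (hm : EvC fun q => 0 < c q ∧ 0 ≤ C q ∧ C q ≤ 1 ∧
      ∀ d : Pk n, PkOk q d → ∀ z, GF q d z → d.ch q k z ≠ 0 → MB q d (m q d) (c q) (C q) z)
    (hC : ∀ e q d, coz L e q d k = coA d.sx d.sy (d.W q) (m q d) (d.ch q k) (1 / 200)) :
    CbI L k := by
  intro ε hε
  refine ⟨fun _ => 1, ⟨fun _ => rfl, fun _ => one_pos⟩, fun e _ _ => ?_⟩
  have hδ : NB_R fun q => 1 / 153600 * ε q := fun q => by simp only [nbR hε.1 q]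
  refine (((evRC hn).and hm).and ((ev_ZS n hn _ hδ).and hE)).mono ?_
  rintro q ⟨⟨rc, c0, C0, C1, hm⟩, hZ, hE⟩ d h z hz hk'
  have gf := gf_of rc h hk hk'
  have hε0 := hε.2 q
  obtain ⟨e1, e2⟩ := nx_gf rc h gf
  have h0 := N_one rc gf
  have h1 := gf.N1
  have hs := (s_le rc).1
  have hdeep : ¬d.u0 z < -(3 / 2) * (q.R / q.σ) := by
    intro hcon
    have h3 := gf.ar.ut
    have h4 : 0 < q.R / q.σ := div_pos rc.inf.R0 rc.inf.σ0
    have h5 : d.uth q = 2 * d.l₀ q + 22 / 10 * q.R := rfl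
    have h6 := H404.INF.l₀_nonneg rc.inf h
    have h7 := rc.inf.R0
    linarith
  obtain ⟨z1, z2⟩ := hZ (by positivity) d h z hz k hk' (Or.inr hdeep)
  rw [← gf.Nf] at z1 z2
  obtain ⟨l1, l2⟩ := hE d h z
  have hm1 := hm d h z gf hk'
  have hm0 : 0 ≤ m q d z := by
    refine le_trans ?_ hm1.lo
    have := gf.gr.nt0
    positivity
  have hm2 : m q d z ≤ 1 * nt q d z :=
    hm1.up.trans (mul_le_mul_of_nonneg_right C1 gf.gr.nt0.le)
  rw [hC, e1, e2]
  exact coA_small (K := 1) (G := nt q d z) (N := d.N q z) (c₂ := 1 / 64)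
    (δ := 1 / 153600 * ε q) l1 l2 (by norm_num) hm2 hm0 zero_le_one (by linarith) z1 z2 hs.le
    (by linarith) le_rfl le_rfl (by positivity) (by norm_num) (by linarith [gf.Fx1])
    (by linarith [gf.Fy1]) hε0.le (by linarith) (by linarith)

/-- **`RSf` pays where `tinf > 0`.** -/
theorem pbI_RSf (hn : 1 ≤ n) {L : Lc n}
    (hM : ∀ q d, L.FM .RSf q d = MA d.sx d.sy (d.W q) (fun z => q.σ / (2 * q.R) *
      (deriv d.Φ (d.u0 z) + q.D 1 0 (d.u0 z + Real.log (prS q.e₁ (qq z)), √(qq z)))) (1 / 200)) :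
    PbI L .RSf := by
  refine ⟨fun _ => 1 / 12, ⟨fun _ => rfl, fun _ => by norm_num⟩, ?_⟩
  refine ((evRC hn).and (EvC.litSm n)).mono ?_
  rintro q ⟨rc, ls⟩ d h z hz hk
  have gf := gf_of rc h (Or.inr rfl) hk
  have e : Mz L q d .RSf = _ := hM q d
  rw [e]
  refine pb_MA rc h gf (by norm_num) (by norm_num) ?_
  have h1 := sd_RSf hk (ls d h).cp
  rw [← rr2 gf] at h1
  have hp := prR_pos q.e₁
  have h2 : 0 < rr z := by
    rcases (rr_nn z).lt_or_eq with h0 | h0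
    · exact h0
    · rw [← h0] at h1
      nlinarith
  have h3 := nt_Gf (q := q) (d := d) h2
  have e1 : q.σ / (2 * q.R) = 1 / 2 * (q.σ / q.R) := by
    have := rc.inf.R0
    field_simp
  have e2 : q.σ / (2 * q.R) * (deriv d.Φ (d.u0 z) +
      q.D 1 0 (d.u0 z + Real.log (prS q.e₁ (qq z)), √(qq z))) =
      1 / 2 * (q.σ / q.R) * nt q d z := by
    rw [e1, h3]
    rfl
  show 6 * (1 / 12) * (q.σ / q.R) * nt q d z ≤ q.σ / (2 * q.R) * (deriv d.Φ (d.u0 z) +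
      q.D 1 0 (d.u0 z + Real.log (prS q.e₁ (qq z)), √(qq z)))
  rw [e2]
  linarith

/-- **The cost of `RSf` where `tinf > 0`.** -/
theorem cbI_RSf (hn : 1 ≤ n) {L : Lc n} (hE : RowFn n)
    (hC : ∀ q d, L.FC .RSf q d = coA d.sx d.sy (d.W q) (fun z => q.σ / (2 * q.R) *
      (deriv d.Φ (d.u0 z) + q.D 1 0 (d.u0 z + Real.log (prS q.e₁ (qq z)), √(qq z))))
      (d.ch q .RSf) (1 / 200)) : CbI L .RSf := by
  refine cbI_coA hn hE (Or.inr rfl) (c := fun _ => 1 / 2) (C := fun _ => 1) ?_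
    (fun e q d => hC q d)
  refine (((evRC hn).and (EvC.litSm n))).mono ?_
  rintro q ⟨rc, ls⟩
  refine ⟨by norm_num, zero_le_one, le_rfl, fun d h z gf hz => ?_⟩
  have h1 := sd_RSf hz (ls d h).cp
  rw [← rr2 gf] at h1
  have hp := prR_pos q.e₁
  have h2 : 0 < rr z := by
    rcases (rr_nn z).lt_or_eq with h0 | h0
    · exact h0
    · rw [← h0] at h1
      nlinarith
  have h3 := nt_Gf (q := q) (d := d) h2
  have h4 := gf.gr.nt0
  have h5 := s_le rc
  have e1 : q.σ / (2 * q.R) = 1 / 2 * (q.σ / q.R) := by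
    have := rc.inf.R0
    field_simp
  have e2 : q.σ / (2 * q.R) * (deriv d.Φ (d.u0 z) +
      q.D 1 0 (d.u0 z + Real.log (prS q.e₁ (qq z)), √(qq z))) =
      1 / 2 * (q.σ / q.R) * nt q d z := by
    rw [e1, h3]
    rfl
  constructor
  · show 1 / 2 * (q.σ / q.R) * nt q d z ≤ q.σ / (2 * q.R) * (deriv d.Φ (d.u0 z) +
      q.D 1 0 (d.u0 z + Real.log (prS q.e₁ (qq z)), √(qq z)))
    rw [e2]
  · show q.σ / (2 * q.R) * (deriv d.Φ (d.u0 z) +
      q.D 1 0 (d.u0 z + Real.log (prS q.e₁ (qq z)), √(qq z))) ≤ 1 * nt q d z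
    rw [e2]
    refine mul_le_mul_of_nonneg_right ?_ h4.le
    linarith [h5.1]

end Vale.Agent.P088.R2.H551.RS
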